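import Mathlib

/-!
# P065, upper bound, line P, block [SEL]: three far apexes joined to many points (helper882)
-/

set_option autoImplicit false

namespace Vale.Agent.P065.H882

open Finset

open Classical in
/-- **cubes**: a dense bipartite graph contains two far vertices `p₁, p₂` with many common
neighbours `G0`, and many vertices `P3`, far from both, with many neighbours in `G0` -/
theorem cube {α β : Type*} (Y : Finset α) (Q : Finset β)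
    (H : Finset (α × β)) (hH : H ⊆ Y ×ˢ Q) (far : α → α → Prop)
    {y N c h : ℝ} (hN : 0 < N) (hy : 0 < y) (hh : 0 < h)
    (hY : (#Y : ℝ) ≤ y) (hQ : (#Q : ℝ) ≤ N)
    (hclose : ∀ p ∈ Y, (#{p' ∈ Y | ¬ far p p'} : ℝ) ≤ c) (hHh : h ≤ #H)
    (hc : 0 ≤ c) (hsmall : 6 * c * y ^ 2 * N ^ 3 < h ^ 3) :
    ∃ p₁ ∈ Y, ∃ p₂ ∈ Y, ∃ P3 ⊆ Y, ∃ G0 ⊆ Q, far p₁ p₂ ∧ (∀ p ∈ P3, far p₁ p ∧ far p₂ p) ∧
      (∀ q ∈ G0, (p₁, q) ∈ H ∧ (p₂, q) ∈ H) ∧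
      h ^ 3 ≤ 4 * N ^ 3 * y ^ 2 * #P3 ∧
      ∀ p ∈ P3, h ^ 3 ≤ 4 * N ^ 2 * y ^ 3 * #{q ∈ G0 | (p, q) ∈ H} := by
  obtain ⟨f, hf⟩ : ∃ f : α → β → ℝ, ∀ p q, f p q = if (p, q) ∈ H then 1 else 0 :=
    ⟨_, fun _ _ => rfl⟩
  obtain ⟨g, hg⟩ : ∃ g : α → α → α → ℝ, ∀ p₁ p₂ p₃, g p₁ p₂ p₃ =
    if far p₁ p₂ ∧ far p₁ p₃ ∧ far p₂ p₃ then 1 else 0 := ⟨_, fun _ _ _ => rfl⟩
  obtain ⟨cl, hcl⟩ : ∃ cl : α → α → ℝ, ∀ p p', cl p p' = if ¬ far p p' then 1 else 0 :=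
    ⟨_, fun _ _ => rfl⟩
  have f0 : ∀ p q, 0 ≤ f p q := fun p q => by rw [hf]; split_ifs <;> norm_num
  have f1 : ∀ p q, f p q ≤ 1 := fun p q => by rw [hf]; split_ifs <;> norm_num
  have cl0 : ∀ p q, 0 ≤ cl p q := fun p q => by rw [hcl]; split_ifs <;> norm_num
  have hsumcl : ∀ p ∈ Y, ∑ p' ∈ Y, cl p p' ≤ c := by
    intro p hp
    have : ∑ p' ∈ Y, cl p p' = (#{p' ∈ Y | ¬ far p p'} : ℝ) := by
      rw [← Finset.sum_boole]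
      exact sum_congr rfl fun p' _ => hcl p p'
    rw [this]
    exact hclose p hp
  -- the sum of the cubes of the degrees
  have h1 : h ^ 3 ≤ N ^ 2 * ∑ q ∈ Q, (∑ p ∈ Y, f p q) ^ 3 := by
    have e1 : ∑ q ∈ Q, ∑ p ∈ Y, f p q = #H := by
      rw [Finset.sum_comm, ← Finset.sum_product' (f := fun p q => f p q)]
      have : ∀ e ∈ Y ×ˢ Q, f e.1 e.2 = if e ∈ H then 1 else 0 := fun e _ => hf e.1 e.2
      rw [Finset.sum_congr rfl this, Finset.sum_boole]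
      congr 2
      ext e
      rw [mem_filter]
      exact ⟨fun h => h.2, fun h => ⟨hH h, h⟩⟩
    have e2 := pow_sum_le_card_mul_sum_pow (s := Q) (f := fun q => ∑ p ∈ Y, f p q)
      (fun q _ => sum_nonneg fun p _ => f0 p q) 2
    rw [e1] at e2
    have e3 : h ^ 3 ≤ (#H : ℝ) ^ (2 + 1) := pow_le_pow_left₀ hh.le hHh 3
    have e4 : (#Q : ℝ) ^ 2 ≤ N ^ 2 := pow_le_pow_left₀ (Nat.cast_nonneg _) hQ 2
    have e5 : 0 ≤ ∑ q ∈ Q, (∑ p ∈ Y, f p q) ^ (2 + 1) :=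
      sum_nonneg fun q _ => pow_nonneg (sum_nonneg fun p _ => f0 p q) _
    exact (e3.trans e2).trans (mul_le_mul_of_nonneg_right e4 e5)
  have hcube : ∀ q, (∑ p ∈ Y, f p q) ^ 3 =
      ∑ p₁ ∈ Y, ∑ p₂ ∈ Y, ∑ p₃ ∈ Y, f p₁ q * f p₂ q * f p₃ q := by
    intro q
    rw [pow_succ, pow_two, Finset.sum_mul_sum, Finset.sum_mul]
    refine sum_congr rfl fun p₁ _ => ?_
    rw [Finset.sum_mul]
    refine sum_congr rfl fun p₂ _ => ?_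
    rw [Finset.mul_sum]
  have hpt : ∀ p₁ p₂ p₃ q, f p₁ q * f p₂ q * f p₃ q ≤
      f p₁ q * f p₂ q * f p₃ q * g p₁ p₂ p₃ + (cl p₁ p₂ + (cl p₁ p₃ + cl p₂ p₃)) := by
    intro p₁ p₂ p₃ q
    have hle : f p₁ q * f p₂ q * f p₃ q ≤ 1 := by
      have a1 := mul_le_one₀ (f1 p₁ q) (f0 p₂ q) (f1 p₂ q)
      exact mul_le_one₀ a1 (f0 p₃ q) (f1 p₃ q)
    by_cases hfar : far p₁ p₂ ∧ far p₁ p₃ ∧ far p₂ p₃
    · rw [hg, if_pos hfar, mul_one]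
      have := cl0 p₁ p₂
      have := cl0 p₁ p₃
      have := cl0 p₂ p₃
      linarith
    · rw [hg, if_neg hfar, mul_zero, zero_add]
      have a1 := cl0 p₁ p₂
      have a2 := cl0 p₁ p₃
      have a3 := cl0 p₂ p₃
      by_cases b1 : far p₁ p₂
      · by_cases b2 : far p₁ p₃
        · have b3 : ¬ far p₂ p₃ := fun b => hfar ⟨b1, b2, b⟩
          have : cl p₂ p₃ = 1 := by rw [hcl, if_pos b3]
          linarith
        · have : cl p₁ p₃ = 1 := by rw [hcl, if_pos b2]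
          linarith
      · have : cl p₁ p₂ = 1 := by rw [hcl, if_pos b1]
        linarith
  -- close triples
  have hY0 : (0 : ℝ) ≤ #Y := Nat.cast_nonneg _
  have hbad : ∑ p₁ ∈ Y, ∑ p₂ ∈ Y, ∑ p₃ ∈ Y, (cl p₁ p₂ + (cl p₁ p₃ + cl p₂ p₃)) ≤
      3 * (y ^ 2 * c) := by
    have b1 : ∀ p₁ ∈ Y, ∀ p₂ ∈ Y, ∑ p₃ ∈ Y, (cl p₁ p₂ + (cl p₁ p₃ + cl p₂ p₃)) ≤
        y * cl p₁ p₂ + (c + c) := by
      intro p₁ h₁ p₂ h₂
      rw [sum_add_distrib, sum_add_distrib, sum_const, nsmul_eq_mul]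
      have c1 := hsumcl p₁ h₁
      have c2 := hsumcl p₂ h₂
      have c3 := mul_le_mul_of_nonneg_right hY (cl0 p₁ p₂)
      linarith
    have b2 : ∀ p₁ ∈ Y, ∑ p₂ ∈ Y, (y * cl p₁ p₂ + (c + c)) ≤ 3 * (y * c) := by
      intro p₁ h₁
      rw [sum_add_distrib, ← mul_sum, sum_const, nsmul_eq_mul]
      have c1 := mul_le_mul_of_nonneg_left (hsumcl p₁ h₁) hy.le
      have c2 := mul_le_mul_of_nonneg_right hY (by linarith : 0 ≤ c + c)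
      linarith
    calc ∑ p₁ ∈ Y, ∑ p₂ ∈ Y, ∑ p₃ ∈ Y, (cl p₁ p₂ + (cl p₁ p₃ + cl p₂ p₃))
        ≤ ∑ p₁ ∈ Y, ∑ p₂ ∈ Y, (y * cl p₁ p₂ + (c + c)) :=
          sum_le_sum fun p₁ h₁ => sum_le_sum fun p₂ h₂ => b1 p₁ h₁ p₂ h₂
      _ ≤ ∑ _p₁ ∈ Y, 3 * (y * c) := sum_le_sum fun p₁ h₁ => b2 p₁ h₁
      _ = #Y * (3 * (y * c)) := by rw [sum_const, nsmul_eq_mul]
      _ ≤ y * (3 * (y * c)) := mul_le_mul_of_nonneg_right hY (by positivity)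
      _ = 3 * (y ^ 2 * c) := by ring
  obtain ⟨F, hF⟩ : ∃ F : α → α → ℝ, ∀ p₁ p₂, F p₁ p₂ =
      ∑ p₃ ∈ Y, ∑ q ∈ Q, f p₁ q * f p₂ q * f p₃ q * g p₁ p₂ p₃ := ⟨_, fun _ _ => rfl⟩
  obtain ⟨T, hT⟩ : ∃ T : ℝ, T = ∑ p₁ ∈ Y, ∑ p₂ ∈ Y, F p₁ p₂ := ⟨_, rfl⟩
  have h2 : ∑ q ∈ Q, (∑ p ∈ Y, f p q) ^ 3 ≤ T + N * (3 * (y ^ 2 * c)) := by
    have e1 : ∀ q ∈ Q, (∑ p ∈ Y, f p q) ^ 3 ≤
        (∑ p₁ ∈ Y, ∑ p₂ ∈ Y, ∑ p₃ ∈ Y, f p₁ q * f p₂ q * f p₃ q * g p₁ p₂ p₃) +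
          3 * (y ^ 2 * c) := by
      intro q _
      rw [hcube]
      calc ∑ p₁ ∈ Y, ∑ p₂ ∈ Y, ∑ p₃ ∈ Y, f p₁ q * f p₂ q * f p₃ q
          ≤ ∑ p₁ ∈ Y, ∑ p₂ ∈ Y, ∑ p₃ ∈ Y, (f p₁ q * f p₂ q * f p₃ q * g p₁ p₂ p₃ +
              (cl p₁ p₂ + (cl p₁ p₃ + cl p₂ p₃))) :=
            sum_le_sum fun p₁ _ => sum_le_sum fun p₂ _ => sum_le_sum fun p₃ _ => hpt p₁ p₂ p₃ q
        _ = (∑ p₁ ∈ Y, ∑ p₂ ∈ Y, ∑ p₃ ∈ Y, f p₁ q * f p₂ q * f p₃ q * g p₁ p₂ p₃) +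
              ∑ p₁ ∈ Y, ∑ p₂ ∈ Y, ∑ p₃ ∈ Y, (cl p₁ p₂ + (cl p₁ p₃ + cl p₂ p₃)) := by
            simp only [← sum_add_distrib]
        _ ≤ _ := by linarith
    have e2 : T = ∑ q ∈ Q, ∑ p₁ ∈ Y, ∑ p₂ ∈ Y, ∑ p₃ ∈ Y,
        f p₁ q * f p₂ q * f p₃ q * g p₁ p₂ p₃ := by
      rw [hT]
      rw [Finset.sum_comm (s := Q)]
      refine sum_congr rfl fun p₁ _ => ?_
      rw [Finset.sum_comm (s := Q)]
      refine sum_congr rfl fun p₂ _ => ?_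
      rw [Finset.sum_comm (s := Q), hF]
    calc ∑ q ∈ Q, (∑ p ∈ Y, f p q) ^ 3
        ≤ ∑ q ∈ Q, ((∑ p₁ ∈ Y, ∑ p₂ ∈ Y, ∑ p₃ ∈ Y, f p₁ q * f p₂ q * f p₃ q * g p₁ p₂ p₃) +
          3 * (y ^ 2 * c)) := sum_le_sum e1
      _ = T + #Q * (3 * (y ^ 2 * c)) := by
          rw [sum_add_distrib, ← e2, sum_const, nsmul_eq_mul]
      _ ≤ T + N * (3 * (y ^ 2 * c)) := by
          have := mul_le_mul_of_nonneg_right hQ (by positivity : 0 ≤ 3 * (y ^ 2 * c))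
          linarith
  have h3 : h ^ 3 < 2 * N ^ 2 * T := by
    have e1 : h ^ 3 ≤ N ^ 2 * (T + N * (3 * (y ^ 2 * c))) :=
      h1.trans (mul_le_mul_of_nonneg_left h2 (by positivity))
    have e2 : N ^ 2 * (T + N * (3 * (y ^ 2 * c))) =
        N ^ 2 * T + (6 * c * y ^ 2 * N ^ 3) / 2 := by ring
    linarith
  -- a good pair
  have h4 : ∃ p₁ ∈ Y, ∃ p₂ ∈ Y, h ^ 3 < 2 * N ^ 2 * y ^ 2 * F p₁ p₂ := by
    by_contra hcon
    push Not at hcon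
    have e1 : 2 * N ^ 2 * y ^ 2 * T ≤ y ^ 2 * h ^ 3 := by
      calc 2 * N ^ 2 * y ^ 2 * T = ∑ p₁ ∈ Y, ∑ p₂ ∈ Y, 2 * N ^ 2 * y ^ 2 * F p₁ p₂ := by
            rw [hT, mul_sum]
            refine sum_congr rfl fun p₁ _ => ?_
            rw [mul_sum]
        _ ≤ ∑ _p₁ ∈ Y, ∑ _p₂ ∈ Y, h ^ 3 :=
            sum_le_sum fun p₁ h₁ => sum_le_sum fun p₂ h₂ => hcon p₁ h₁ p₂ h₂
        _ = (#Y : ℝ) ^ 2 * h ^ 3 := by
            rw [sum_const, sum_const, nsmul_eq_mul, nsmul_eq_mul]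
            ring
        _ ≤ y ^ 2 * h ^ 3 :=
            mul_le_mul_of_nonneg_right (pow_le_pow_left₀ hY0 hY 2) (by positivity)
    have e2 : y ^ 2 * h ^ 3 < y ^ 2 * (2 * N ^ 2 * T) := mul_lt_mul_of_pos_left h3 (by positivity)
    have e3 : y ^ 2 * (2 * N ^ 2 * T) = 2 * N ^ 2 * y ^ 2 * T := by ring
    linarith
  obtain ⟨p₁, hp₁, p₂, hp₂, hgood⟩ := h4
  have hF0 : 0 < F p₁ p₂ := by
    by_contra hneg
    have e1 : 2 * N ^ 2 * y ^ 2 * F p₁ p₂ ≤ 0 :=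
      mul_nonpos_of_nonneg_of_nonpos (by positivity) (not_lt.1 hneg)
    have e2 : 0 < h ^ 3 := by positivity
    linarith
  have hfar12 : far p₁ p₂ := by
    by_contra hnf
    have : F p₁ p₂ = 0 := by
      rw [hF]
      refine sum_eq_zero fun p₃ _ => sum_eq_zero fun q _ => ?_
      rw [hg, if_neg (fun h => hnf h.1), mul_zero]
    linarith
  obtain ⟨G0, hG0⟩ : ∃ G0 : Finset β, G0 = {q ∈ Q | (p₁, q) ∈ H ∧ (p₂, q) ∈ H} := ⟨_, rfl⟩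
  obtain ⟨P3, hP3⟩ : ∃ P3 : Finset α, P3 = {p ∈ Y | (far p₁ p ∧ far p₂ p) ∧
      h ^ 3 ≤ 4 * N ^ 2 * y ^ 3 * #{q ∈ G0 | (p, q) ∈ H}} := ⟨_, rfl⟩
  refine ⟨p₁, hp₁, p₂, hp₂, P3, ?_, G0, ?_, hfar12, ?_, ?_, ?_, ?_⟩
  · rw [hP3]; exact filter_subset _ _
  · rw [hG0]; exact filter_subset _ _
  · intro p hp
    rw [hP3, mem_filter] at hp
    exact hp.2.1
  · intro q hq
    rw [hG0, mem_filter] at hq
    exact hq.2
  · -- number of the third apexes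
    obtain ⟨θ, hθ⟩ : ∃ θ : ℝ, θ = h ^ 3 / (4 * N ^ 2 * y ^ 3) := ⟨_, rfl⟩
    have hθ0 : 0 ≤ θ := by rw [hθ]; positivity
    have hD : ∀ p₃ ∈ Y, ∑ q ∈ Q, f p₁ q * f p₂ q * f p₃ q * g p₁ p₂ p₃ ≤
        (if p₃ ∈ P3 then N else 0) + θ := by
      intro p₃ hp₃
      by_cases hfar : far p₁ p₃ ∧ far p₂ p₃
      · have e1 : ∑ q ∈ Q, f p₁ q * f p₂ q * f p₃ q * g p₁ p₂ p₃ =
            (#{q ∈ G0 | (p₃, q) ∈ H} : ℝ) := by
          have : ∀ q ∈ Q, f p₁ q * f p₂ q * f p₃ q * g p₁ p₂ p₃ =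
              if ((p₁, q) ∈ H ∧ (p₂, q) ∈ H) ∧ (p₃, q) ∈ H then 1 else 0 := by
            intro q _
            rw [hg, if_pos ⟨hfar12, hfar.1, hfar.2⟩, mul_one, hf, hf, hf]
            by_cases a1 : (p₁, q) ∈ H <;> by_cases a2 : (p₂, q) ∈ H <;>
              by_cases a3 : (p₃, q) ∈ H <;> simp [a1, a2, a3]
          rw [Finset.sum_congr rfl this, Finset.sum_boole, hG0, Finset.filter_filter]
        by_cases hmem : p₃ ∈ P3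
        · rw [if_pos hmem, e1]
          have e2 : (#{q ∈ G0 | (p₃, q) ∈ H} : ℝ) ≤ #Q := by
            have : #{q ∈ G0 | (p₃, q) ∈ H} ≤ #Q := by
              apply card_le_card
              intro q hq
              have := (mem_filter.1 hq).1
              rw [hG0, mem_filter] at this
              exact this.1
            exact_mod_cast this
          linarith
        · rw [if_neg hmem, zero_add, e1, hθ, le_div_iff₀ (by positivity)]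
          rw [hP3, mem_filter, not_and, not_and, not_le] at hmem
          have := hmem hp₃ hfar
          linarith
      · have e1 : ∑ q ∈ Q, f p₁ q * f p₂ q * f p₃ q * g p₁ p₂ p₃ = 0 := by
          refine sum_eq_zero fun q _ => ?_
          rw [hg, if_neg (fun h => hfar ⟨h.2.1, h.2.2⟩), mul_zero]
        rw [e1]
        split_ifs <;> linarith
    have hFle : F p₁ p₂ ≤ N * #P3 + y * θ := by
      rw [hF]
      refine (sum_le_sum hD).trans ?_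
      rw [sum_add_distrib, sum_const, nsmul_eq_mul]
      have e1 : ∑ p₃ ∈ Y, (if p₃ ∈ P3 then N else 0) = N * #P3 := by
        rw [← Finset.sum_filter, sum_const, nsmul_eq_mul, mul_comm]
        congr 3
        ext p
        rw [mem_filter]
        refine ⟨fun h => h.2, fun h => ⟨?_, h⟩⟩
        rw [hP3, mem_filter] at h
        exact h.1
      have e2 := mul_le_mul_of_nonneg_right hY hθ0
      linarith
    have e3 : 2 * N ^ 2 * y ^ 2 * (y * θ) = h ^ 3 / 2 := by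
      rw [hθ]
      field_simp
      ring
    have e4 : 2 * N ^ 2 * y ^ 2 * F p₁ p₂ ≤ 2 * N ^ 2 * y ^ 2 * (N * #P3 + y * θ) :=
      mul_le_mul_of_nonneg_left hFle (by positivity)
    have e5 : 2 * N ^ 2 * y ^ 2 * (N * #P3 + y * θ) =
        2 * N ^ 3 * y ^ 2 * #P3 + 2 * N ^ 2 * y ^ 2 * (y * θ) := by ring
    rw [e5, e3] at e4
    linarith
  · intro p hp
    rw [hP3, mem_filter] at hp
    exact hp.2.2

end Vale.Agent.P065.H882
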