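import Vale.Agent.P065.UB.H759.U2Defs
import Vale.Agent.P065.H882.Cube

/-!
# P065, upper bound, line P, block [SEL] (helper882)

`stSel_of : StGd → StSel`: the selection of the window `w₀`, of the apexes `p₁, p₂`, of the set
`P3` of third apexes and of the points `G0`.
-/

set_option autoImplicit false

namespace Vale.Agent.P065.H882

open Finset Vale.Agent.P065.UB Vale.Agent.P065.UB.H759

section

variable {C0 : ℕ} {K L lam δ : ℝ} {Q : Finset Pt} {ι : Type} {W : Finset ι} {a b : ι → ℝ}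
  {Y : ι → Finset Pt} {J : ι → Finset (Pt × Pt)}

theorem pj_L {C0 : ℕ} (h : PJ C0 K L lam δ Q W a b Y J) (hC : 50 ≤ C0) : 2 ^ 50 ≤ L := by
  have h2 := h.two
  calc (2 : ℝ) ^ 50 ≤ K ^ 50 := pow_le_pow_left₀ (by norm_num) h2 50
    _ ≤ K ^ C0 := pow_le_pow_right₀ (by linarith) hC
    _ ≤ L := h.KL

theorem pj_lam (h : PJ C0 K L lam δ Q W a b Y J) (hC : 50 ≤ C0) : L ^ 3 ≤ lam := by
  have hL : (1 : ℝ) ≤ L := le_trans (by norm_num) (pj_L h hC)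
  exact (pow_le_pow_right₀ hL (by omega)).trans h.Llam

theorem pj_pos (h : PJ C0 K L lam δ Q W a b Y J) (hC : 50 ≤ C0) :
    0 < K ∧ 0 < L ∧ 0 < lam ∧ (0 : ℝ) < #Q := by
  have hL : (1 : ℝ) ≤ L := le_trans (by norm_num) (pj_L h hC)
  have hl : 0 < lam := lt_of_lt_of_le (by positivity) (pj_lam h hC)
  refine ⟨by linarith [h.two], by linarith, hl, ?_⟩
  exact_mod_cast card_pos.2 h.neQ

open Classical in
/-- the good far joined pairs of the window `w` -/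
noncomputable def GJ (L : ℝ) (J : ι → Finset (Pt × Pt)) (D : Finset Pt) (w : ι) :
    Finset (Pt × Pt) :=
  {e ∈ J w | e.1 ∈ D ∧ e.2 ∈ D ∧ 1 / L < |e.1.1 - e.2.1|}

theorem mem_GJ {D : Finset Pt} {w : ι} {e : Pt × Pt} :
    e ∈ GJ L J D w ↔ e ∈ J w ∧ e.1 ∈ D ∧ e.2 ∈ D ∧ 1 / L < |e.1.1 - e.2.1| := by
  classical
  unfold GJ
  rw [mem_filter]

open Classical in
/-- one window: the joined pairs which are not good or not far -/
theorem card_J_le (h : PJ C0 K L lam δ Q W a b Y J) (hC : 50 ≤ C0) (D : Finset Pt) {w : ι}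
    (hw : w ∈ W) :
    (#(J w) : ℝ) ≤ #(GJ L J D w) + 2 * (#{p ∈ Y w | p ∉ D} * #(Y w)) +
      #(Y w) * (#Q / (K ^ C0 * lam)) := by
  obtain ⟨hK, hL, hlam, hN⟩ := pj_pos h hC
  have hsub : J w ⊆ GJ L J D w ∪ (({p ∈ Y w | p ∉ D} ×ˢ Y w) ∪ ((Y w ×ˢ {p ∈ Y w | p ∉ D}) ∪
      {e ∈ Y w ×ˢ Y w | |e.1.1 - e.2.1| ≤ 1 / L})) := by
    intro e he
    obtain ⟨h1, h2⟩ := h.subJ w hw e he
    simp only [mem_union, mem_product, mem_filter, mem_GJ]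
    by_cases c1 : e.1 ∈ D
    · by_cases c2 : e.2 ∈ D
      · by_cases c3 : 1 / L < |e.1.1 - e.2.1|
        · exact Or.inl ⟨he, c1, c2, c3⟩
        · exact Or.inr (Or.inr (Or.inr ⟨⟨h1, h2⟩, not_lt.1 c3⟩))
      · exact Or.inr (Or.inr (Or.inl ⟨h1, h2, c2⟩))
    · exact Or.inr (Or.inl ⟨⟨h1, c1⟩, h2⟩)
  have hclose : (#{e ∈ Y w ×ˢ Y w | |e.1.1 - e.2.1| ≤ 1 / L} : ℝ) ≤
      #(Y w) * (#Q / (K ^ C0 * lam)) := by
    have e1 : (#{e ∈ Y w ×ˢ Y w | |e.1.1 - e.2.1| ≤ 1 / L} : ℝ) =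
        ∑ p ∈ Y w, (#{p' ∈ Y w | |p.1 - p'.1| ≤ 1 / L} : ℝ) := by
      rw [← Finset.sum_boole, Finset.sum_product]
      refine sum_congr rfl fun p _ => ?_
      rw [Finset.sum_boole]
    rw [e1]
    calc ∑ p ∈ Y w, (#{p' ∈ Y w | |p.1 - p'.1| ≤ 1 / L} : ℝ)
        ≤ ∑ _p ∈ Y w, (#Q / (K ^ C0 * lam) : ℝ) := by
          refine sum_le_sum fun p _ => ?_
          rw [le_div_iff₀ (by positivity)]
          have := h.ncu w hw p.1
          have e2 : {p' ∈ Y w | |p.1 - p'.1| ≤ 1 / L} = {p' ∈ Y w | |p'.1 - p.1| ≤ 1 / L} := by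
            refine filter_congr fun p' _ => ?_
            rw [abs_sub_comm]
          rw [e2]
          calc (#{p' ∈ Y w | |p'.1 - p.1| ≤ 1 / L} : ℝ) * (K ^ C0 * lam)
              = K ^ C0 * lam * #{p' ∈ Y w | |p'.1 - p.1| ≤ 1 / L} := by ring
            _ ≤ #Q := this
      _ = _ := by rw [sum_const, nsmul_eq_mul]
  have hnat := (card_le_card hsub).trans ((card_union_le _ _).trans
    (Nat.add_le_add_left ((card_union_le _ _).trans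
      (Nat.add_le_add_left (card_union_le _ _) _)) _))
  rw [card_product, card_product] at hnat
  have hr : (#(J w) : ℝ) ≤ #(GJ L J D w) + (#{p ∈ Y w | p ∉ D} * #(Y w) +
      (#(Y w) * #{p ∈ Y w | p ∉ D} + #{e ∈ Y w ×ˢ Y w | |e.1.1 - e.2.1| ≤ 1 / L})) := by
    exact_mod_cast hnat
  linarith

open Classical in
/-- many good far joined pairs -/
theorem sum_GJ (h : PJ C0 K L lam δ Q W a b Y J) (hC : 50 ≤ C0) (D : Finset Pt)
    (hD : K ^ 5 * ∑ w ∈ W, (#{p ∈ Y w | p ∉ D} : ℝ) ≤ lam * #Q) :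
    (#Q : ℝ) ^ 2 ≤ 4 * K ^ 2 * ∑ w ∈ W, (#(GJ L J D w) : ℝ) := by
  obtain ⟨hK, hL, hlam, hN⟩ := pj_pos h hC
  have h2 := h.two
  obtain ⟨N, hNd⟩ : ∃ N : ℝ, N = #Q := ⟨_, rfl⟩
  obtain ⟨SG, hSG⟩ : ∃ SG : ℝ, SG = ∑ w ∈ W, (#(GJ L J D w) : ℝ) := ⟨_, rfl⟩
  obtain ⟨SB, hSB⟩ : ∃ SB : ℝ, SB = ∑ w ∈ W, (#{p ∈ Y w | p ∉ D} : ℝ) := ⟨_, rfl⟩
  rw [← hSB, ← hNd] at hD
  rw [← hSG, ← hNd]
  rw [← hNd] at hN
  have hSB0 : 0 ≤ SB := by rw [hSB]; positivity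
  have hSG0 : 0 ≤ SG := by rw [hSG]; positivity
  have hKC : 4 * K ^ 4 ≤ K ^ C0 := by
    have h4 : 4 ≤ K ^ 2 := by nlinarith
    calc 4 * K ^ 4 ≤ K ^ 2 * K ^ 4 := mul_le_mul_of_nonneg_right h4 (by positivity)
      _ = K ^ 6 := by ring
      _ ≤ K ^ C0 := pow_le_pow_right₀ (by linarith) (by omega)
  have hKC0 : 0 < K ^ C0 := by positivity
  have hYle : ∀ w ∈ W, (#(Y w) : ℝ) ≤ K * N / lam := by
    intro w hw
    rw [le_div_iff₀ hlam, hNd]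
    have := h.cY w hw
    linarith
  -- sum of the joined pairs
  have e1 : lam ^ 2 * N ^ 2 ≤ K ^ 2 * lam ^ 2 * ∑ w ∈ W, (#(J w) : ℝ) := by
    calc lam ^ 2 * N ^ 2 ≤ (K * #W) * N ^ 2 :=
          mul_le_mul_of_nonneg_right h.cW (by positivity)
      _ = K * ∑ _w ∈ W, N ^ 2 := by rw [sum_const, nsmul_eq_mul]; ring
      _ ≤ K * ∑ w ∈ W, K * lam ^ 2 * (#(J w) : ℝ) := by
          refine mul_le_mul_of_nonneg_left (sum_le_sum fun w hw => ?_) hK.le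
          rw [hNd]
          exact h.cJ w hw
      _ = K ^ 2 * lam ^ 2 * ∑ w ∈ W, (#(J w) : ℝ) := by rw [← mul_sum]; ring
  have e2 : N ^ 2 ≤ K ^ 2 * ∑ w ∈ W, (#(J w) : ℝ) := by
    have : lam ^ 2 * N ^ 2 ≤ lam ^ 2 * (K ^ 2 * ∑ w ∈ W, (#(J w) : ℝ)) := by linarith
    exact le_of_mul_le_mul_left this (by positivity)
  have e3 : ∑ w ∈ W, (#(J w) : ℝ) ≤ SG + 2 * (SB * (K * N / lam)) +
      #W * ((K * N / lam) * (N / (K ^ C0 * lam))) := by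
    calc ∑ w ∈ W, (#(J w) : ℝ) ≤ ∑ w ∈ W, ((#(GJ L J D w) : ℝ) +
          2 * (#{p ∈ Y w | p ∉ D} * (K * N / lam)) + (K * N / lam) * (N / (K ^ C0 * lam))) := by
          refine sum_le_sum fun w hw => ?_
          have c1 := card_J_le h hC D hw
          rw [← hNd] at c1
          have c2 : (#{p ∈ Y w | p ∉ D} : ℝ) * #(Y w) ≤ #{p ∈ Y w | p ∉ D} * (K * N / lam) :=
            mul_le_mul_of_nonneg_left (hYle w hw) (Nat.cast_nonneg _)
          have c3 : (#(Y w) : ℝ) * (N / (K ^ C0 * lam)) ≤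
              (K * N / lam) * (N / (K ^ C0 * lam)) :=
            mul_le_mul_of_nonneg_right (hYle w hw) (by positivity)
          linarith
      _ = _ := by
          rw [sum_add_distrib, sum_add_distrib, ← mul_sum, ← sum_mul, sum_const, nsmul_eq_mul,
            hSG, hSB]
  -- the two error terms
  have e4 : K ^ 2 * (2 * (SB * (K * N / lam))) ≤ N ^ 2 / 2 := by
    have c1 : K ^ 2 * (2 * (SB * (K * N / lam))) = (K ^ 5 * SB) * (2 * N / (K ^ 2 * lam)) := by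
      field_simp
    rw [c1]
    calc (K ^ 5 * SB) * (2 * N / (K ^ 2 * lam)) ≤ (lam * N) * (2 * N / (K ^ 2 * lam)) :=
          mul_le_mul_of_nonneg_right hD (by positivity)
      _ = 2 * N ^ 2 / K ^ 2 := by field_simp
      _ ≤ N ^ 2 / 2 := by
          rw [div_le_div_iff₀ (by positivity) (by norm_num)]
          have : 4 ≤ K ^ 2 := by nlinarith
          nlinarith [sq_nonneg N]
  have e5 : K ^ 2 * (#W * ((K * N / lam) * (N / (K ^ C0 * lam)))) ≤ N ^ 2 / 4 := by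
    calc K ^ 2 * (#W * ((K * N / lam) * (N / (K ^ C0 * lam))))
        ≤ K ^ 2 * ((K * lam ^ 2) * ((K * N / lam) * (N / (K ^ C0 * lam)))) := by
          refine mul_le_mul_of_nonneg_left ?_ (by positivity)
          exact mul_le_mul_of_nonneg_right h.cW' (by positivity)
      _ = K ^ 4 * N ^ 2 / K ^ C0 := by field_simp
      _ ≤ N ^ 2 / 4 := by
          rw [div_le_div_iff₀ hKC0 (by norm_num)]
          nlinarith [sq_nonneg N]
  have e6 : K ^ 2 * ∑ w ∈ W, (#(J w) : ℝ) ≤ K ^ 2 * (SG + 2 * (SB * (K * N / lam)) +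
      #W * ((K * N / lam) * (N / (K ^ C0 * lam)))) :=
    mul_le_mul_of_nonneg_left e3 (by positivity)
  have e7 : K ^ 2 * (SG + 2 * (SB * (K * N / lam)) +
      #W * ((K * N / lam) * (N / (K ^ C0 * lam)))) = K ^ 2 * SG +
      K ^ 2 * (2 * (SB * (K * N / lam))) +
      K ^ 2 * (#W * ((K * N / lam) * (N / (K ^ C0 * lam)))) := by ring
  linarith

open Classical in
/-- the good pairs `(p, q)`, `p ∈ Y w₀`, joined transversally to `w₀` -/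
noncomputable def HP (L : ℝ) (Q : Finset Pt) (W : Finset ι) (a : ι → ℝ) (Y : ι → Finset Pt)
    (J : ι → Finset (Pt × Pt)) (D : Finset Pt) (w₀ : ι) : Finset (Pt × Pt) :=
  {e ∈ Y w₀ ×ˢ Q | e.1 ∈ D ∧ e.2 ∈ D ∧ Jn L W a J w₀ e.1 e.2}

theorem mem_HP {D : Finset Pt} {w₀ : ι} {e : Pt × Pt} :
    e ∈ HP L Q W a Y J D w₀ ↔ (e.1 ∈ Y w₀ ∧ e.2 ∈ Q) ∧ e.1 ∈ D ∧ e.2 ∈ D ∧
      Jn L W a J w₀ e.1 e.2 := by
  classical
  unfold HP
  rw [mem_filter, mem_product]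

open Classical in
/-- a good far joined pair is seen by many windows through its first point -/
theorem many_w0 (h : PJ C0 K L lam δ Q W a b Y J) (hC : 50 ≤ C0) {D : Finset Pt}
    (hD : D ⊆ Act K lam Q W Y) {w : ι} (hw : w ∈ W) {e : Pt × Pt} (he : e ∈ GJ L J D w) :
    lam ≤ 2 * K ^ 6 * #{w₀ ∈ W | e ∈ HP L Q W a Y J D w₀} := by
  obtain ⟨hK, hL, hlam, hN⟩ := pj_pos h hC
  have h2 := h.two
  obtain ⟨h1, h3, h4, h5⟩ := mem_GJ.1 he
  obtain ⟨hY1, hY2⟩ := h.subJ w hw e h1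
  have hQ1 := h.subY w hw hY1
  have hQ2 := h.subY w hw hY2
  have hact := hD h3
  unfold Act at hact
  rw [mem_filter] at hact
  have hncx := h.ncx e.1 hQ1 (a w)
  have hsub : {w₀ ∈ W | e.1 ∈ Y w₀} ⊆ {w₀ ∈ W | e ∈ HP L Q W a Y J D w₀} ∪
      {w₀ ∈ W | e.1 ∈ Y w₀ ∧ |a w₀ - a w| ≤ 1 / L} := by
    intro w₀ hw₀
    obtain ⟨k1, k2⟩ := mem_filter.1 hw₀
    rw [mem_union, mem_filter, mem_filter]
    by_cases c : |a w₀ - a w| ≤ 1 / L
    · exact Or.inr ⟨k1, k2, c⟩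
    · refine Or.inl ⟨k1, mem_HP.2 ⟨⟨k2, hQ2⟩, h3, h4, w, hw, h1, ?_, h5⟩⟩
      rw [abs_sub_comm]
      exact not_le.1 c
  have hnat := (card_le_card hsub).trans (card_union_le _ _)
  have hr : (#{w₀ ∈ W | e.1 ∈ Y w₀} : ℝ) ≤ #{w₀ ∈ W | e ∈ HP L Q W a Y J D w₀} +
      #{w₀ ∈ W | e.1 ∈ Y w₀ ∧ |a w₀ - a w| ≤ 1 / L} := by exact_mod_cast hnat
  obtain ⟨x, hx⟩ : ∃ x : ℝ, x = #{w₀ ∈ W | e ∈ HP L Q W a Y J D w₀} := ⟨_, rfl⟩
  obtain ⟨z, hz⟩ : ∃ z : ℝ, z = #{w₀ ∈ W | e.1 ∈ Y w₀ ∧ |a w₀ - a w| ≤ 1 / L} := ⟨_, rfl⟩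
  have hz0 : 0 ≤ z := by rw [hz]; positivity
  have hKC : 2 * K ^ 6 ≤ K ^ C0 := by
    calc 2 * K ^ 6 ≤ K * K ^ 6 := mul_le_mul_of_nonneg_right h2 (by positivity)
      _ = K ^ 7 := by ring
      _ ≤ K ^ C0 := pow_le_pow_right₀ (by linarith) (by omega)
  rw [← hx, ← hz] at hr
  rw [← hx]
  have hncx' : K ^ C0 * z ≤ lam := by rw [hz]; exact hncx
  have k1 : K ^ 6 * z ≤ lam / 2 := by
    have := mul_le_mul_of_nonneg_right hKC hz0
    linarith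
  have k2 : lam ≤ K ^ 6 * (x + z) := by
    refine hact.2.trans ?_
    exact mul_le_mul_of_nonneg_left hr (by positivity)
  linarith

open Classical in
/-- **choice of `w₀`** -/
theorem exists_w0 (h : PJ C0 K L lam δ Q W a b Y J) (hC : 50 ≤ C0) {D : Finset Pt}
    (hD : D ⊆ Act K lam Q W Y)
    (hB : K ^ 5 * ∑ w ∈ W, (#{p ∈ Y w | p ∉ D} : ℝ) ≤ lam * #Q) :
    ∃ w₀ ∈ W, (#Q : ℝ) ^ 2 ≤ 8 * K ^ 9 * lam * #(HP L Q W a Y J D w₀) := by
  obtain ⟨hK, hL, hlam, hN⟩ := pj_pos h hC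
  have h2 := h.two
  set U : Finset (Pt × Pt) := W.biUnion (fun w => GJ L J D w) with hU
  have hcardU : (#U : ℝ) = ∑ w ∈ W, (#(GJ L J D w) : ℝ) := by
    rw [hU, card_biUnion]
    · push_cast
      rfl
    · intro w hw w' hw' hne
      rw [Function.onFun, disjoint_left]
      intro e he he'
      exact (disjoint_left.1 (h.disJ w hw w' hw' hne)) (mem_GJ.1 he).1 (mem_GJ.1 he').1
  have hsG := sum_GJ h hC D hB
  rw [← hcardU] at hsG
  -- double counting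
  have hdc : ∑ w₀ ∈ W, (#{e ∈ U | e ∈ HP L Q W a Y J D w₀} : ℝ) =
      ∑ e ∈ U, (#{w₀ ∈ W | e ∈ HP L Q W a Y J D w₀} : ℝ) := by
    have e1 : ∀ w₀ ∈ W, (#{e ∈ U | e ∈ HP L Q W a Y J D w₀} : ℝ) =
        ∑ e ∈ U, if e ∈ HP L Q W a Y J D w₀ then 1 else 0 := fun w₀ _ => by
      rw [Finset.sum_boole]
    have e2 : ∀ e ∈ U, (#{w₀ ∈ W | e ∈ HP L Q W a Y J D w₀} : ℝ) =
        ∑ w₀ ∈ W, if e ∈ HP L Q W a Y J D w₀ then 1 else 0 := fun e _ => by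
      rw [Finset.sum_boole]
    rw [sum_congr rfl e1, sum_congr rfl e2, Finset.sum_comm]
  have hlow : #U * lam ≤ 2 * K ^ 6 * ∑ w₀ ∈ W, (#(HP L Q W a Y J D w₀) : ℝ) := by
    calc #U * lam = ∑ _e ∈ U, lam := by rw [sum_const, nsmul_eq_mul]
      _ ≤ ∑ e ∈ U, 2 * K ^ 6 * (#{w₀ ∈ W | e ∈ HP L Q W a Y J D w₀} : ℝ) := by
          refine sum_le_sum fun e he => ?_
          obtain ⟨w, hw, he⟩ := mem_biUnion.1 he
          exact many_w0 h hC hD hw he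
      _ = 2 * K ^ 6 * ∑ w₀ ∈ W, (#{e ∈ U | e ∈ HP L Q W a Y J D w₀} : ℝ) := by
          rw [← mul_sum, hdc]
      _ ≤ _ := by
          refine mul_le_mul_of_nonneg_left (sum_le_sum fun w₀ _ => ?_) (by positivity)
          have : #{e ∈ U | e ∈ HP L Q W a Y J D w₀} ≤ #(HP L Q W a Y J D w₀) := by
            apply card_le_card
            intro e he
            exact (mem_filter.1 he).2
          exact_mod_cast this
  by_contra hcon
  push Not at hcon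
  obtain ⟨N, hNd⟩ : ∃ N : ℝ, N = #Q := ⟨_, rfl⟩
  obtain ⟨S, hS⟩ : ∃ S : ℝ, S = ∑ w₀ ∈ W, (#(HP L Q W a Y J D w₀) : ℝ) := ⟨_, rfl⟩
  rw [← hS] at hlow
  rw [← hNd] at hsG hcon hN
  have hWne : W.Nonempty := by
    rw [nonempty_iff_ne_empty]
    intro hE
    have := h.cW
    rw [hE, card_empty, Nat.cast_zero, mul_zero] at this
    have : 0 < lam ^ 2 := by positivity
    linarith
  have hlt : 8 * K ^ 9 * lam * S < K * lam ^ 2 * N ^ 2 := by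
    calc 8 * K ^ 9 * lam * S = ∑ w₀ ∈ W, 8 * K ^ 9 * lam * (#(HP L Q W a Y J D w₀) : ℝ) := by
          rw [hS, mul_sum]
      _ < ∑ _w₀ ∈ W, N ^ 2 := sum_lt_sum_of_nonempty hWne hcon
      _ = #W * N ^ 2 := by rw [sum_const, nsmul_eq_mul]
      _ ≤ K * lam ^ 2 * N ^ 2 := mul_le_mul_of_nonneg_right h.cW' (by positivity)
  have hge : K * lam ^ 2 * N ^ 2 ≤ 8 * K ^ 9 * lam * S := by
    calc K * lam ^ 2 * N ^ 2 ≤ K * lam ^ 2 * (4 * K ^ 2 * #U) :=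
          mul_le_mul_of_nonneg_left hsG (by positivity)
      _ = 4 * K ^ 3 * lam * (#U * lam) := by ring
      _ ≤ 4 * K ^ 3 * lam * (2 * K ^ 6 * S) := mul_le_mul_of_nonneg_left hlow (by positivity)
      _ = 8 * K ^ 9 * lam * S := by ring
  linarith

/-- the joined points are not on the central line of `w₀` -/
theorem off_line (h : PJ C0 K L lam δ Q W a b Y J) (hC : 50 ≤ C0) {w₀ : ι} (hw₀ : w₀ ∈ W)
    {p q : Pt} (hp : p ∈ Y w₀) (hJ : Jn L W a J w₀ p q) : q.2 - a w₀ * q.1 - b w₀ ≠ 0 := by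
  obtain ⟨hK, hL, hlam, hN⟩ := pj_pos h hC
  have hL2 := pj_L h hC
  have hL12 : 12 ≤ L := le_trans (by norm_num) hL2
  intro h0
  obtain ⟨w, hw, h1, h3, h4⟩ := hJ
  obtain ⟨hp', hq'⟩ := h.subJ w hw _ h1
  have t1 := abs_le.1 (h.tube w hw p hp')
  have t2 := abs_le.1 (h.tube w hw q hq')
  have t3 := abs_le.1 (h.tube w₀ hw₀ p hp)
  have hprod : |(a w - a w₀) * (p.1 - q.1)| ≤ 12 * δ := by
    rw [abs_le]
    constructor <;> nlinarith [t1.1, t1.2, t2.1, t2.2, t3.1, t3.2, h0]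
  rw [abs_mul] at hprod
  have hlow : 1 / L * (1 / L) < |a w - a w₀| * |p.1 - q.1| :=
    mul_lt_mul'' h3 h4 (by positivity) (by positivity)
  have h5 : 1 / L * (1 / L) < 12 * δ := lt_of_lt_of_le hlow hprod
  have h6 : 1 < 12 * δ * L ^ 2 := by
    have : 1 / L * (1 / L) * L ^ 2 < 12 * δ * L ^ 2 := mul_lt_mul_of_pos_right h5 (by positivity)
    have e1 : 1 / L * (1 / L) * L ^ 2 = 1 := by field_simp
    linarith
  have hd := h.dpos
  have h7 : δ * L ^ 6 ≤ L := by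
    calc δ * L ^ 6 = δ * (L ^ 3) ^ 2 := by ring
      _ ≤ δ * lam ^ 2 := mul_le_mul_of_nonneg_left
          (pow_le_pow_left₀ (by positivity) (pj_lam h hC) 2) hd.le
      _ ≤ L := h.dlam
  have h8 : δ * L ^ 5 ≤ 1 := by
    have : L * (δ * L ^ 5) ≤ L * 1 := by linarith [h7, (by ring : L * (δ * L ^ 5) = δ * L ^ 6)]
    exact le_of_mul_le_mul_left this hL
  have h9 : 12 * δ * L ^ 2 ≤ δ * L ^ 5 := by
    have c1 : 12 ≤ L ^ 3 := by nlinarith [sq_nonneg L, mul_pos hL hL]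
    calc 12 * δ * L ^ 2 = 12 * (δ * L ^ 2) := by ring
      _ ≤ L ^ 3 * (δ * L ^ 2) := mul_le_mul_of_nonneg_right c1 (by positivity)
      _ = δ * L ^ 5 := by ring
  linarith

end

/-- the arithmetic of the cubes -/
theorem sel_arith {K N lam X : ℝ} (hK : 2 ≤ K) (hN : 0 < N) (hlam : 0 < lam) (hX : K ^ 50 ≤ X) :
    6 * (N / (X * lam)) * (K * N / lam) ^ 2 * N ^ 3 < (N ^ 2 / (16 * K ^ 9 * lam)) ^ 3 := by
  have hK0 : 0 < K := by linarith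
  have hX0 : 0 < X := lt_of_lt_of_le (by positivity) hX
  have e1 : 6 * (N / (X * lam)) * (K * N / lam) ^ 2 * N ^ 3 =
      (6 * K ^ 2 / X) * (N ^ 6 / lam ^ 3) := by field_simp
  have e2 : (N ^ 2 / (16 * K ^ 9 * lam)) ^ 3 = (1 / (4096 * K ^ 27)) * (N ^ 6 / lam ^ 3) := by
    field_simp
    norm_num
  rw [e1, e2]
  refine mul_lt_mul_of_pos_right ?_ (by positivity)
  rw [div_lt_div_iff₀ hX0 (by positivity), one_mul]
  have e3 : (24576 : ℝ) < K ^ 21 := by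
    calc (24576 : ℝ) < 2 ^ 21 := by norm_num
      _ ≤ K ^ 21 := pow_le_pow_left₀ (by norm_num) hK 21
  calc 6 * K ^ 2 * (4096 * K ^ 27) = 24576 * K ^ 29 := by ring
    _ < K ^ 21 * K ^ 29 := mul_lt_mul_of_pos_right e3 (by positivity)
    _ = K ^ 50 := by ring
    _ ≤ X := hX

theorem sel_arith3 {K N lam P : ℝ} (hK : 2 ≤ K) (hN : 0 < N) (hlam : 0 < lam) (hP : 0 ≤ P)
    (h : (N ^ 2 / (16 * K ^ 9 * lam)) ^ 3 ≤ 4 * N ^ 3 * (K * N / lam) ^ 2 * P) :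
    N ≤ K ^ 44 * lam * P := by
  have hK0 : 0 < K := by linarith
  have e2 : (N ^ 2 / (16 * K ^ 9 * lam)) ^ 3 = N * (N ^ 5 / (4096 * K ^ 27 * lam ^ 3)) := by
    field_simp
    norm_num
  have e1 : 4 * N ^ 3 * (K * N / lam) ^ 2 * P =
      (16384 * K ^ 29 * lam * P) * (N ^ 5 / (4096 * K ^ 27 * lam ^ 3)) := by
    field_simp
    ring
  rw [e1, e2] at h
  have h1 := le_of_mul_le_mul_right h (by positivity)
  refine h1.trans ?_
  have e3 : (16384 : ℝ) ≤ K ^ 15 := by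
    calc (16384 : ℝ) ≤ 2 ^ 15 := by norm_num
      _ ≤ K ^ 15 := pow_le_pow_left₀ (by norm_num) hK 15
  calc 16384 * K ^ 29 * lam * P = 16384 * (K ^ 29 * lam * P) := by ring
    _ ≤ K ^ 15 * (K ^ 29 * lam * P) := mul_le_mul_of_nonneg_right e3 (by positivity)
    _ = _ := by ring

theorem sel_arith4 {K N lam D : ℝ} (hK : 2 ≤ K) (hN : 0 < N) (hlam : 0 < lam) (hD : 0 ≤ D)
    (h : (N ^ 2 / (16 * K ^ 9 * lam)) ^ 3 ≤ 4 * N ^ 2 * (K * N / lam) ^ 3 * D) :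
    N ≤ K ^ 44 * D := by
  have hK0 : 0 < K := by linarith
  have e2 : (N ^ 2 / (16 * K ^ 9 * lam)) ^ 3 = N * (N ^ 5 / (4096 * K ^ 27 * lam ^ 3)) := by
    field_simp
    norm_num
  have e1 : 4 * N ^ 2 * (K * N / lam) ^ 3 * D =
      (16384 * K ^ 30 * D) * (N ^ 5 / (4096 * K ^ 27 * lam ^ 3)) := by
    field_simp
    ring
  rw [e1, e2] at h
  have h1 := le_of_mul_le_mul_right h (by positivity)
  refine h1.trans ?_
  have e3 : (16384 : ℝ) ≤ K ^ 14 := by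
    calc (16384 : ℝ) ≤ 2 ^ 14 := by norm_num
      _ ≤ K ^ 14 := pow_le_pow_left₀ (by norm_num) hK 14
  calc 16384 * K ^ 30 * D = 16384 * (K ^ 30 * D) := by ring
    _ ≤ K ^ 14 * (K ^ 30 * D) := mul_le_mul_of_nonneg_right e3 (by positivity)
    _ = _ := by ring

/-- **[SEL]** -/
theorem stSel_of (hGd : StGd) : StSel := by
  classical
  obtain ⟨cg, hgd⟩ := hGd
  refine ⟨44, max cg 50, ?_⟩
  intro C0 hC0 K L lam δ Q ι W a b Y J h
  have hC : 50 ≤ C0 := (le_max_right _ _).trans hC0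
  obtain ⟨hK, hL, hlam, hN⟩ := pj_pos h hC
  have h2 := h.two
  have hDA : Gd K L lam δ Q W Y ⊆ Act K lam Q W Y := by
    intro p hp
    unfold Gd at hp
    exact (mem_filter.1 hp).1
  have hB : K ^ 5 * ∑ w ∈ W, (#{p ∈ Y w | p ∉ Gd K L lam δ Q W Y} : ℝ) ≤ lam * #Q := by
    convert hgd C0 ((le_max_left _ _).trans hC0) K L lam δ Q ι W a b Y J h
  obtain ⟨w₀, hw₀, hH⟩ := exists_w0 h hC hDA hB
  obtain ⟨D, hDdef⟩ : ∃ D : Finset Pt, D = Gd K L lam δ Q W Y := ⟨_, rfl⟩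
  rw [← hDdef] at hH
  -- the better side
  obtain ⟨Hε, hHε⟩ : ∃ Hε : ℝ → Finset (Pt × Pt), ∀ ε, Hε ε =
      {e ∈ HP L Q W a Y J D w₀ | 0 < ε * (e.2.2 - a w₀ * e.2.1 - b w₀)} := ⟨_, fun _ => rfl⟩
  have hside : ∃ ε : ℝ, (ε = 1 ∨ ε = -1) ∧ (#Q : ℝ) ^ 2 ≤ 16 * K ^ 9 * lam * #(Hε ε) := by
    have hsub : HP L Q W a Y J D w₀ ⊆ Hε 1 ∪ Hε (-1) := by
      intro e he
      rw [mem_union, hHε, hHε, mem_filter, mem_filter]
      have hne := off_line h hC hw₀ (mem_HP.1 he).1.1 (mem_HP.1 he).2.2.2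
      rcases lt_or_gt_of_ne hne with hlt | hgt
      · exact Or.inr ⟨he, by linarith⟩
      · exact Or.inl ⟨he, by linarith⟩
    have hc := (card_le_card hsub).trans (card_union_le _ _)
    have hr : (#(HP L Q W a Y J D w₀) : ℝ) ≤ #(Hε 1) + #(Hε (-1)) := by exact_mod_cast hc
    have hpos : 0 ≤ 8 * K ^ 9 * lam := by positivity
    have hr' := mul_le_mul_of_nonneg_left hr hpos
    rcases le_total (#(Hε 1) : ℝ) (#(Hε (-1)) : ℝ) with hle | hle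
    · refine ⟨-1, Or.inr rfl, ?_⟩
      have := mul_le_mul_of_nonneg_left hle hpos
      linarith
    · refine ⟨1, Or.inl rfl, ?_⟩
      have := mul_le_mul_of_nonneg_left hle hpos
      linarith
  obtain ⟨ε, hε, hcard⟩ := hside
  have hmem : ∀ {e : Pt × Pt}, e ∈ Hε ε → (e.1 ∈ Y w₀ ∧ e.2 ∈ Q) ∧ e.1 ∈ D ∧ e.2 ∈ D ∧
      Jn L W a J w₀ e.1 e.2 ∧ 0 < ε * (e.2.2 - a w₀ * e.2.1 - b w₀) := by
    intro e he
    rw [hHε, mem_filter] at he
    obtain ⟨k1, k2⟩ := he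
    obtain ⟨k3, k4, k5, k6⟩ := mem_HP.1 k1
    exact ⟨k3, k4, k5, k6, k2⟩
  have hX : K ^ 50 ≤ K ^ C0 := pow_le_pow_right₀ (by linarith) hC
  have hcube := cube (Y w₀) Q (Hε ε)
    (fun e he => mem_product.2 (hmem he).1) (fun p p' : Pt => 1 / L < |p.1 - p'.1|)
    (y := K * #Q / lam) (N := #Q) (c := #Q / (K ^ C0 * lam)) (h := (#Q : ℝ) ^ 2 / (16 * K ^ 9 * lam))
    hN (by positivity) (by positivity)
    (by
      rw [le_div_iff₀ hlam]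
      have := h.cY w₀ hw₀
      linarith)
    le_rfl
    (by
      intro p _
      rw [le_div_iff₀ (by positivity)]
      have hn := h.ncu w₀ hw₀ p.1
      have e2 : {p' ∈ Y w₀ | ¬ 1 / L < |p.1 - p'.1|} = {p' ∈ Y w₀ | |p'.1 - p.1| ≤ 1 / L} := by
        refine filter_congr fun p' _ => ?_
        rw [not_lt, abs_sub_comm]
      rw [e2]
      calc (#{p' ∈ Y w₀ | |p'.1 - p.1| ≤ 1 / L} : ℝ) * (K ^ C0 * lam)
          = K ^ C0 * lam * #{p' ∈ Y w₀ | |p'.1 - p.1| ≤ 1 / L} := by ring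
        _ ≤ #Q := by convert hn)
    (by
      rw [div_le_iff₀ (by positivity)]
      linarith)
    (by positivity)
    (sel_arith h2 hN hlam hX)
  obtain ⟨p₁, hp₁, p₂, hp₂, P3, hP3, G0, hG0, hfar, hfar3, hG, hcP, hcG0⟩ := hcube
  have hcG : ∀ p ∈ P3, ((#Q : ℝ) ^ 2 / (16 * K ^ 9 * lam)) ^ 3 ≤
      4 * (#Q : ℝ) ^ 2 * (K * #Q / lam) ^ 3 * (#{q ∈ G0 | (p, q) ∈ Hε ε} : ℝ) :=
    fun p hp => by convert hcG0 p hp
  refine ⟨w₀, hw₀, ε, hε, p₁, hp₁, p₂, hp₂, P3, hP3, G0, hG0, ?_, ?_, hfar, ?_, ?_, ?_, ?_⟩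
  · intro p hp
    rw [← hDdef]
    have hd := hcG p hp
    have hpos : (0 : ℝ) < #{q ∈ G0 | (p, q) ∈ Hε ε} := by
      by_contra hneg
      have h0 : (#{q ∈ G0 | (p, q) ∈ Hε ε} : ℝ) = 0 :=
        le_antisymm (not_lt.1 hneg) (Nat.cast_nonneg _)
      rw [h0, mul_zero] at hd
      have : 0 < ((#Q : ℝ) ^ 2 / (16 * K ^ 9 * lam)) ^ 3 := by positivity
      linarith
    have hne : 0 < #{q ∈ G0 | (p, q) ∈ Hε ε} := by exact_mod_cast hpos
    obtain ⟨q, hq⟩ := card_pos.1 hne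
    exact (hmem (mem_filter.1 hq).2).2.1
  · intro q hq
    rw [← hDdef]
    exact (hmem (hG q hq).1).2.2.1
  · intro p hp
    obtain ⟨k1, k2⟩ := hfar3 p hp
    rw [abs_sub_comm p.1, abs_sub_comm p.1]
    exact ⟨k1, k2⟩
  · intro q hq
    obtain ⟨k1, k2⟩ := hG q hq
    exact ⟨(hmem k1).2.2.2.1, (hmem k2).2.2.2.1, (hmem k1).2.2.2.2⟩
  · exact sel_arith3 h2 hN hlam (Nat.cast_nonneg _) hcP
  · intro p hp
    have h3 := sel_arith4 h2 hN hlam (Nat.cast_nonneg _) (hcG p hp)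
    refine h3.trans (mul_le_mul_of_nonneg_left (Nat.cast_le.2 (card_le_card ?_)) (by positivity))
    intro q hq
    rw [mem_filter] at hq ⊢
    exact ⟨hq.1, (hmem hq.2).2.2.2.1⟩

end Vale.Agent.P065.H882
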