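import Vale.Agent.P065.UB.Cross
import Vale.Agent.P065.UB350.Cross

/-!
# P065, upper bound: the `k`-sensitive form (helper882)

`kdep`: if `#(Ed P k) ≤ C * #P ^ (4 / 3 - c)` for all point sets in general position, then
`#(Ed P k) ≤ 9 * C * 3 ^ (4 / 3 - c) * #P * (k + 1) ^ (1 / 3 - c)`.

Proof: by random sampling (Clarkson-Shor) the number of `(≤ J)`-edges is at most `4 n (J + 1)`, so
some `j` in `[k + 1, 2 k + 1]` has at most `8 n` `j`-edges. Cut the time at every `(k + 1)`-th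
`j`-edge. In a piece of time only `3 k + 2` points ever have rank `≤ k`, since a point can enter
the `j + 1` lowest points only by a `j`-edge; the `k`-edges of the piece are `k`-edges of these
points.
-/

set_option autoImplicit false

namespace Vale.Agent.P065.H882

open Finset UB

theorem good_mono {P S : Finset Pt} (hP : Good P) (h : S ⊆ P) : Good S :=
  ⟨fun p hp q hq => hP.xinj p (h hp) q (h hq),
    fun m a ha b hb c hc => hP.gen m a (h ha) b (h hb) c (h hc)⟩

/-- weights with a prescribed and an excluded set -/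
theorem weight_ex {α : Type*} [DecidableEq α] (V T U : Finset α) (hT : T ⊆ V) (hU : U ⊆ V)
    (hd : Disjoint U T) (p : ℝ) :
    ∑ S ∈ V.powerset, p ^ #S * (1 - p) ^ #(V \ S) * (if T ⊆ S ∧ Disjoint U S then 1 else 0)
      = p ^ #T * (1 - p) ^ #U := by
  have hsub : (V \ U).powerset ⊆ V.powerset := Finset.powerset_mono.2 Finset.sdiff_subset
  have hTU : T ⊆ V \ U := by
    intro x hx
    exact Finset.mem_sdiff.2 ⟨hT hx, fun h => (Finset.disjoint_left.1 hd) h hx⟩
  rw [← Finset.sum_subset hsub]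
  · rw [mul_comm (p ^ #T), ← UB350.weight_sup (V \ U) T hTU p, Finset.mul_sum]
    apply Finset.sum_congr rfl
    intro S hS
    have hS' := Finset.mem_powerset.1 hS
    have hdis : Disjoint U S := by
      rw [Finset.disjoint_left]
      intro x hx hxS
      exact (Finset.mem_sdiff.1 (hS' hxS)).2 hx
    have hcard : #(V \ S) = #((V \ U) \ S) + #U := by
      rw [← Finset.card_union_of_disjoint]
      · congr 1
        ext x
        simp only [mem_sdiff, mem_union]
        constructor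
        · rintro ⟨h1, h2⟩
          by_cases h3 : x ∈ U
          · exact Or.inr h3
          · exact Or.inl ⟨⟨h1, h3⟩, h2⟩
        · rintro (⟨⟨h1, _⟩, h2⟩ | h1)
          · exact ⟨h1, h2⟩
          · exact ⟨hU h1, fun h => (Finset.disjoint_left.1 hdis) h1 h⟩
      · rw [Finset.disjoint_left]
        intro x hx
        exact (Finset.mem_sdiff.1 (Finset.mem_sdiff.1 hx).1).2
    simp only [hdis, and_true]
    rw [hcard, pow_add]
    ring
  · intro S hS hS'
    have h1 : ¬ Disjoint U S := by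
      intro hdis
      apply hS'
      rw [Finset.mem_powerset]
      intro x hx
      exact Finset.mem_sdiff.2 ⟨Finset.mem_powerset.1 hS hx,
        fun h => (Finset.disjoint_left.1 hdis) h hx⟩
    rw [if_neg (fun h => h1 h.2), mul_zero]

/-- at most one `0`-edge has a given left end -/
theorem card_Ed_zero {S : Finset Pt} (hS : Good S) : #(Ed S 0) ≤ #S := by
  classical
  have aux : ∀ p q q' : Pt, (p, q) ∈ Ed S 0 → (p, q') ∈ Ed S 0 → ¬ sl p q < sl p q' := by
    intro p q q' he he' h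
    obtain ⟨h1, h2, h3, h4⟩ := mem_Ed.1 he
    obtain ⟨_, h2', h3', h4'⟩ := mem_Ed.1 he'
    have h5 := (ht_lt_iff_right h3 (sl p q')).2 h
    unfold g0 at h4'
    rw [Finset.card_eq_zero, Finset.filter_eq_empty_iff] at h4'
    exact h4' h2 h5
  refine Finset.card_le_card_of_injOn (fun e => e.1) (fun e he => (mem_Ed.1 he).1) ?_
  rintro ⟨p, q⟩ he ⟨p', q'⟩ he' h
  simp only at h
  subst h
  obtain ⟨h1, h2, h3, h4⟩ := mem_Ed.1 (Finset.mem_coe.1 he)
  obtain ⟨_, h2', h3', h4'⟩ := mem_Ed.1 (Finset.mem_coe.1 he')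
  rcases lt_trichotomy (sl p q) (sl p q') with h | h | h
  · exact absurd h (aux p q q' (Finset.mem_coe.1 he) (Finset.mem_coe.1 he'))
  · have h5 : q = q' := uniq hS h1 h2 h2' (ne_of_gt h3) (ne_of_gt h3') h
    rw [h5]
  · exact absurd h (aux p q' q (Finset.mem_coe.1 he') (Finset.mem_coe.1 he))

open Classical in
/-- the points strictly below the line of `e` -/
noncomputable def bel (P : Finset Pt) (e : Pt × Pt) : Finset Pt :=
  {v ∈ P | ht (sl e.1 e.2) v < ht (sl e.1 e.2) e.1}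

theorem mem_bel {P : Finset Pt} {e : Pt × Pt} {v : Pt} :
    v ∈ bel P e ↔ v ∈ P ∧ ht (sl e.1 e.2) v < ht (sl e.1 e.2) e.1 := by
  classical
  unfold bel
  rw [mem_filter]

theorem card_bel {P : Finset Pt} {k : ℕ} {e : Pt × Pt} (he : e ∈ Ed P k) : #(bel P e) = k :=
  (mem_Ed.1 he).2.2.2

/-- **Clarkson-Shor**: the number of `(≤ J)`-edges -/
theorem clarkson_shor {P : Finset Pt} (hP : Good P) (J : ℕ) :
    ∑ j ∈ range (J + 1), #(Ed P j) ≤ 4 * #P * (J + 1) := by
  classical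
  set E : Finset (Pt × Pt) := (range (J + 1)).biUnion (fun j => Ed P j) with hE
  have hcard : #E = ∑ j ∈ range (J + 1), #(Ed P j) := by
    rw [hE, Finset.card_biUnion]
    intro i _ j _ hij
    rw [Function.onFun, Finset.disjoint_left]
    intro e h1 h2
    exact hij ((card_bel h1).symm.trans (card_bel h2))
  have hEm : ∀ e ∈ E, e.1 ∈ P ∧ e.2 ∈ P ∧ e.1.1 < e.2.1 ∧ #(bel P e) ≤ J := by
    intro e he
    obtain ⟨j, hj, he⟩ := Finset.mem_biUnion.1 he
    have h := mem_Ed.1 he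
    refine ⟨h.1, h.2.1, h.2.2.1, ?_⟩
    rw [card_bel he]
    have := Finset.mem_range.1 hj
    omega
  set p : ℝ := 1 / (2 * (J + 1)) with hp
  have hJ : (0 : ℝ) < J + 1 := by positivity
  have hp0 : 0 < p := by rw [hp]; positivity
  have hp1 : p ≤ 1 / 2 := by
    rw [hp, div_le_div_iff₀ (by positivity) (by norm_num)]
    have : (0 : ℝ) ≤ J := Nat.cast_nonneg _
    linarith
  obtain ⟨w, hw⟩ : ∃ w : Finset Pt → ℝ, ∀ S, w S = p ^ #S * (1 - p) ^ #(P \ S) := ⟨_, fun _ => rfl⟩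
  have hw0 : ∀ S, 0 ≤ w S := by
    intro S
    rw [hw]
    exact mul_nonneg (pow_nonneg hp0.le _) (pow_nonneg (by linarith) _)
  -- upper bound
  have hup : ∑ S ∈ P.powerset, w S * (#S : ℝ) = p * #P := by
    have : ∀ S ∈ P.powerset, w S * (#S : ℝ) =
        ∑ v ∈ P, w S * (if ({v} : Finset Pt) ⊆ S then 1 else 0) := by
      intro S hS'
      rw [← Finset.mul_sum, Finset.sum_boole]
      congr 3
      ext v
      simp only [mem_filter, singleton_subset_iff]
      exact ⟨fun h => ⟨mem_powerset.1 hS' h, h⟩, fun h => h.2⟩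
    rw [Finset.sum_congr rfl this, Finset.sum_comm]
    have h2 : ∀ v ∈ P, ∑ S ∈ P.powerset,
        w S * (if ({v} : Finset Pt) ⊆ S then 1 else 0) = p := by
      intro v hv
      have := UB350.weight_sup P {v} (by simpa using hv) p
      rw [Finset.card_singleton, pow_one] at this
      rw [← this]
      apply Finset.sum_congr rfl
      intro S _
      rw [hw]
    rw [Finset.sum_congr rfl h2, Finset.sum_const, nsmul_eq_mul]
    ring
  -- lower bound
  have hlow : ∀ e ∈ E, p ^ 2 / 2 ≤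
      ∑ S ∈ P.powerset, w S * (if ({e.1, e.2} : Finset Pt) ⊆ S ∧ Disjoint (bel P e) S
        then 1 else 0) := by
    intro e he
    obtain ⟨h1, h2, h3, h4⟩ := hEm e he
    have hne : e.1 ≠ e.2 := fun h => by rw [h] at h3; exact lt_irrefl _ h3
    have hd : Disjoint (bel P e) ({e.1, e.2} : Finset Pt) := by
      rw [Finset.disjoint_left]
      intro v hv hv'
      have h5 := (mem_bel.1 hv).2
      rw [mem_insert, mem_singleton] at hv'
      rcases hv' with h6 | h6
      · rw [h6] at h5; exact lt_irrefl _ h5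
      · rw [h6, edge_ht e h3] at h5; exact lt_irrefl _ h5
    have h := weight_ex P {e.1, e.2} (bel P e) (by
      intro v hv
      rw [mem_insert, mem_singleton] at hv
      rcases hv with hv | hv <;> rw [hv] <;> assumption) (fun v hv => (mem_bel.1 hv).1) hd p
    have h' : ∑ S ∈ P.powerset, w S * (if ({e.1, e.2} : Finset Pt) ⊆ S ∧ Disjoint (bel P e) S
        then 1 else 0) = p ^ #({e.1, e.2} : Finset Pt) * (1 - p) ^ #(bel P e) := by
      rw [← h]
      apply Finset.sum_congr rfl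
      intro S _
      rw [hw]
    rw [h', Finset.card_pair hne]
    have hb : (1 : ℝ) / 2 ≤ (1 - p) ^ #(bel P e) := by
      have hB := one_add_mul_le_pow (a := -p) (by linarith) #(bel P e)
      have hB' : (1 - p : ℝ) = 1 + -p := by ring
      rw [hB']
      refine le_trans ?_ hB
      have h5 : (#(bel P e) : ℝ) ≤ J := by exact_mod_cast h4
      have h6 : (#(bel P e) : ℝ) * p ≤ J * p := mul_le_mul_of_nonneg_right h5 hp0.le
      have h7 : (J : ℝ) * p ≤ 1 / 2 := by
        rw [hp, mul_one_div, div_le_div_iff₀ (by positivity) (by norm_num)]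
        linarith
      linarith
    have hp2 : 0 ≤ p ^ 2 := by positivity
    nlinarith
  have hsum : (#E : ℝ) * (p ^ 2 / 2) ≤ p * #P := by
    calc (#E : ℝ) * (p ^ 2 / 2) = ∑ e ∈ E, p ^ 2 / 2 := by
          rw [Finset.sum_const, nsmul_eq_mul]
      _ ≤ ∑ e ∈ E, ∑ S ∈ P.powerset, w S *
            (if ({e.1, e.2} : Finset Pt) ⊆ S ∧ Disjoint (bel P e) S then 1 else 0) :=
          Finset.sum_le_sum hlow
      _ = ∑ S ∈ P.powerset, w S *
            (#{e ∈ E | ({e.1, e.2} : Finset Pt) ⊆ S ∧ Disjoint (bel P e) S} : ℝ) := by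
          rw [Finset.sum_comm]
          apply Finset.sum_congr rfl
          intro S _
          rw [← Finset.mul_sum, Finset.sum_boole]
      _ ≤ ∑ S ∈ P.powerset, w S * (#S : ℝ) := by
          apply Finset.sum_le_sum
          intro S hS
          apply mul_le_mul_of_nonneg_left _ (hw0 S)
          have hSP := mem_powerset.1 hS
          have hsub : ({e ∈ E | ({e.1, e.2} : Finset Pt) ⊆ S ∧ Disjoint (bel P e) S} :
              Finset (Pt × Pt)) ⊆ Ed S 0 := by
            intro e he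
            obtain ⟨he, h5, h6⟩ := mem_filter.1 he
            obtain ⟨h1, h2, h3, h4⟩ := hEm e he
            refine mem_Ed.2 ⟨h5 (by simp), h5 (by simp), h3, ?_⟩
            unfold g0
            rw [Finset.card_eq_zero, Finset.filter_eq_empty_iff]
            intro v hv h7
            exact (Finset.disjoint_left.1 h6) (mem_bel.2 ⟨hSP hv, h7⟩) hv
          exact_mod_cast (Finset.card_le_card hsub).trans (card_Ed_zero (good_mono hP hSP))
      _ = p * #P := hup
  have hfin : (#E : ℝ) ≤ 4 * #P * (J + 1) := by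
    have h1 : (#E : ℝ) * p ≤ 2 * #P := by
      have h2 : p * ((#E : ℝ) * p) ≤ p * (2 * #P) := by nlinarith
      exact le_of_mul_le_mul_left h2 hp0
    rw [hp, mul_one_div, div_le_iff₀ (by positivity)] at h1
    linarith
  rw [← hcard]
  exact_mod_cast hfin

/-- a level `j` between `k + 1` and `2 k + 1` with few edges -/
theorem exists_level {P : Finset Pt} (hP : Good P) (k : ℕ) :
    ∃ j, k + 1 ≤ j ∧ j ≤ 2 * k + 1 ∧ #(Ed P j) ≤ 8 * #P := by
  by_contra hcon
  push Not at hcon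
  have h := clarkson_shor hP (2 * k + 1)
  have h1 : ∑ j ∈ Finset.Ico (k + 1) (2 * k + 2), (8 * #P + 1) ≤
      ∑ j ∈ Finset.Ico (k + 1) (2 * k + 2), #(Ed P j) := by
    apply Finset.sum_le_sum
    intro j hj
    have := Finset.mem_Ico.1 hj
    exact hcon j this.1 (by omega)
  have h2 : ∑ j ∈ Finset.Ico (k + 1) (2 * k + 2), #(Ed P j) ≤
      ∑ j ∈ range (2 * k + 1 + 1), #(Ed P j) := by
    apply Finset.sum_le_sum_of_subset
    intro j hj
    have := Finset.mem_Ico.1 hj
    rw [Finset.mem_range]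
    omega
  rw [Finset.sum_const, Nat.card_Ico, smul_eq_mul] at h1
  have h3 : 2 * k + 2 - (k + 1) = k + 1 := by omega
  rw [h3] at h1
  nlinarith

/-! ### ranks -/

theorem gp_le_g0 {P : Finset Pt} (hP : Good P) {m : ℝ} {v : Pt} (hv : v ∈ P) :
    gp P m v ≤ g0 P m v + 1 := by
  classical
  have hsub : ({u ∈ P | (v.1 < u.1 ∧ sl v u ≤ m) ∨ (u.1 < v.1 ∧ m < sl v u)} : Finset Pt) ⊆
      ({u ∈ P | ht m u < ht m v} : Finset Pt) ∪ ({u ∈ P | v.1 < u.1 ∧ sl v u = m} : Finset Pt) := by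
    intro u hu
    rw [mem_union, mem_filter, mem_filter]
    obtain ⟨hu, h | h⟩ := mem_filter.1 hu
    · rcases h.2.lt_or_eq with h1 | h1
      · exact Or.inl ⟨hu, (ht_lt_iff_right h.1 m).2 h1⟩
      · exact Or.inr ⟨hu, h.1, h1⟩
    · exact Or.inl ⟨hu, (ht_lt_iff_left h.1 m).2 h.2⟩
  have hone : #({u ∈ P | v.1 < u.1 ∧ sl v u = m} : Finset Pt) ≤ 1 := by
    rw [Finset.card_le_one]
    intro a ha b hb
    obtain ⟨ha, ha1, ha2⟩ := mem_filter.1 ha
    obtain ⟨hb, hb1, hb2⟩ := mem_filter.1 hb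
    exact uniq hP hv ha hb (ne_of_gt ha1) (ne_of_gt hb1) (ha2.trans hb2.symm)
  have h := (Finset.card_le_card hsub).trans (Finset.card_union_le _ _)
  unfold gp g0
  omega

theorem gm_le_g0 {P : Finset Pt} (hP : Good P) {m : ℝ} {v : Pt} (hv : v ∈ P) :
    gm P m v ≤ g0 P m v + 1 := by
  classical
  have hsub : ({u ∈ P | (v.1 < u.1 ∧ sl v u < m) ∨ (u.1 < v.1 ∧ m ≤ sl v u)} : Finset Pt) ⊆
      ({u ∈ P | ht m u < ht m v} : Finset Pt) ∪ ({u ∈ P | u.1 < v.1 ∧ sl v u = m} : Finset Pt) := by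
    intro u hu
    rw [mem_union, mem_filter, mem_filter]
    obtain ⟨hu, h | h⟩ := mem_filter.1 hu
    · exact Or.inl ⟨hu, (ht_lt_iff_right h.1 m).2 h.2⟩
    · rcases h.2.lt_or_eq with h1 | h1
      · exact Or.inl ⟨hu, (ht_lt_iff_left h.1 m).2 h1⟩
      · exact Or.inr ⟨hu, h.1, h1.symm⟩
  have hone : #({u ∈ P | u.1 < v.1 ∧ sl v u = m} : Finset Pt) ≤ 1 := by
    rw [Finset.card_le_one]
    intro a ha b hb
    obtain ⟨ha, ha1, ha2⟩ := mem_filter.1 ha
    obtain ⟨hb, hb1, hb2⟩ := mem_filter.1 hb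
    exact uniq hP hv ha hb (ne_of_lt ha1) (ne_of_lt hb1) (ha2.trans hb2.symm)
  have h := (Finset.card_le_card hsub).trans (Finset.card_union_le _ _)
  unfold gm g0
  omega

open Classical in
theorem card_gp_le {P : Finset Pt} (hP : Good P) (m : ℝ) (j : ℕ) :
    #{v ∈ P | gp P m v ≤ j} ≤ j + 1 := by
  rw [← Finset.card_range (j + 1)]
  refine Finset.card_le_card_of_injOn (fun v => gp P m v) ?_ ?_
  · intro v hv
    rw [Finset.mem_coe, mem_filter] at hv
    rw [Finset.mem_coe, mem_range]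
    exact Nat.lt_succ_of_le hv.2
  · intro v hv w hw h
    rw [Finset.mem_coe, mem_filter] at hv hw
    simp only at h
    rcases lt_trichotomy (ht m v) (ht m w) with h1 | h1 | h1
    · have := gp_lt_of hP hw.1 hv.1 (Or.inl h1)
      omega
    · rcases lt_trichotomy v.1 w.1 with h2 | h2 | h2
      · have := gp_lt_of hP hv.1 hw.1 (Or.inr ⟨h1.symm, h2⟩)
        omega
      · exact hP.xinj v hv.1 w hw.1 h2
      · have := gp_lt_of hP hw.1 hv.1 (Or.inr ⟨h1, h2⟩)
        omega
    · have := gp_lt_of hP hv.1 hw.1 (Or.inl h1)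
      omega

open Classical in
/-- few points have a low rank at some time between `m1` and `m2` -/
theorem window_pts {P : Finset Pt} (hP : Good P) {k j : ℕ} (hkj : k + 1 ≤ j) {m1 m2 : ℝ}
    (B : Finset Pt) (hB : ∀ v ∈ B, v ∈ P ∧ ∃ t, m1 ≤ t ∧ t ≤ m2 ∧ g0 P t v ≤ k) :
    #B ≤ j + 1 + #{f ∈ Ed P j | m1 ≤ sl f.1 f.2 ∧ sl f.1 f.2 < m2} := by
  have hsub : B ⊆ ({v ∈ P | gp P m1 v ≤ j} : Finset Pt) ∪
      ({f ∈ Ed P j | m1 ≤ sl f.1 f.2 ∧ sl f.1 f.2 < m2} : Finset (Pt × Pt)).image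
        (fun f => f.2) := by
    intro v hv
    obtain ⟨hvP, t, ht1, ht2, hg⟩ := hB v hv
    rw [mem_union, mem_filter]
    by_cases h : gp P m1 v ≤ j
    · exact Or.inl ⟨hvP, h⟩
    right
    rcases ht1.lt_or_eq with h1 | h1
    · have h2 := gm_le_g0 hP (m := t) hvP
      obtain ⟨u, hu, hu1, hu2⟩ := enter_edge hP (k := j) hvP _ m1 t rfl h1 (by omega) (by omega)
      exact mem_image.2 ⟨(u, v), mem_filter.2 ⟨hu, hu1.le, lt_of_lt_of_le hu2 ht2⟩, rfl⟩
    · have h2 := gp_le_g0 hP (m := t) hvP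
      rw [← h1] at h2 hg
      omega
  refine (Finset.card_le_card hsub).trans ((Finset.card_union_le _ _).trans ?_)
  exact Nat.add_le_add (card_gp_le hP m1 j) Finset.card_image_le

theorem g0_le_of_below {P : Finset Pt} {m : ℝ} {u v : Pt} (h : ht m u ≤ ht m v) :
    g0 P m u ≤ g0 P m v := by
  classical
  unfold g0
  apply Finset.card_le_card
  intro w hw
  rw [mem_filter] at hw ⊢
  exact ⟨hw.1, lt_of_lt_of_le hw.2 h⟩

open Classical in
/-- **one piece of time**: `k`-edges between two `j`-edges are `k`-edges of a small set -/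
theorem piece {P : Finset Pt} (hP : Good P) {k j d : ℕ} (hkj : k + 1 ≤ j) (F : Finset (Pt × Pt))
    (hF : F ⊆ Ed P k)
    (hd : ∀ e ∈ F, ∀ e' ∈ F,
      #{f ∈ Ed P j | sl e.1 e.2 ≤ sl f.1 f.2 ∧ sl f.1 f.2 < sl e'.1 e'.2} ≤ d) :
    ∃ B : Finset Pt, B ⊆ P ∧ #B ≤ j + 1 + d ∧ F ⊆ Ed B k := by
  rcases F.eq_empty_or_nonempty with hE | hE
  · exact ⟨∅, empty_subset _, by simp, by rw [hE]; exact empty_subset _⟩
  obtain ⟨e1, he1, hmin⟩ := F.exists_min_image (fun e => sl e.1 e.2) hE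
  obtain ⟨e2, he2, hmax⟩ := F.exists_max_image (fun e => sl e.1 e.2) hE
  refine ⟨F.biUnion (fun e => insert e.1 (insert e.2 (bel P e))), ?_, ?_, ?_⟩
  · intro v hv
    obtain ⟨e, he, hv⟩ := mem_biUnion.1 hv
    have h := mem_Ed.1 (hF he)
    rcases mem_insert.1 hv with h1 | h1
    · rw [h1]; exact h.1
    rcases mem_insert.1 h1 with h2 | h2
    · rw [h2]; exact h.2.1
    · exact (mem_bel.1 h2).1
  · refine (window_pts hP hkj (m1 := sl e1.1 e1.2) (m2 := sl e2.1 e2.2) _ ?_).trans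
      (Nat.add_le_add_left (hd e1 he1 e2 he2) _)
    intro v hv
    obtain ⟨e, he, hv⟩ := mem_biUnion.1 hv
    have h := mem_Ed.1 (hF he)
    have key : v ∈ P ∧ ht (sl e.1 e.2) v ≤ ht (sl e.1 e.2) e.1 := by
      rcases mem_insert.1 hv with h1 | h1
      · rw [h1]; exact ⟨h.1, le_refl _⟩
      rcases mem_insert.1 h1 with h2 | h2
      · rw [h2]; exact ⟨h.2.1, le_of_eq (edge_ht e h.2.2.1)⟩
      · exact ⟨(mem_bel.1 h2).1, (mem_bel.1 h2).2.le⟩
    exact ⟨key.1, sl e.1 e.2, hmin e he, hmax e he, (g0_le_of_below key.2).trans (le_of_eq h.2.2.2)⟩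
  · intro e he
    have h := mem_Ed.1 (hF he)
    refine mem_Ed.2 ⟨mem_biUnion.2 ⟨e, he, mem_insert_self _ _⟩,
      mem_biUnion.2 ⟨e, he, mem_insert_of_mem (mem_insert_self _ _)⟩, h.2.2.1, ?_⟩
    rw [← h.2.2.2]
    unfold g0
    congr 1
    ext v
    rw [mem_filter, mem_filter]
    constructor
    · rintro ⟨hv, hlt⟩
      refine ⟨?_, hlt⟩
      obtain ⟨e', he', hv⟩ := mem_biUnion.1 hv
      have h' := mem_Ed.1 (hF he')
      rcases mem_insert.1 hv with h1 | h1
      · rw [h1]; exact h'.1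
      rcases mem_insert.1 h1 with h2 | h2
      · rw [h2]; exact h'.2.1
      · exact (mem_bel.1 h2).1
    · rintro ⟨hv, hlt⟩
      exact ⟨mem_biUnion.2 ⟨e, he, mem_insert_of_mem (mem_insert_of_mem (mem_bel.2 ⟨hv, hlt⟩))⟩,
        hlt⟩

/-- **decomposition**: the `k`-edges of `P` are distributed to `8 n / (k + 1) + 1` sets of at most
`3 k + 2` points -/
theorem decomp {P : Finset Pt} (hP : Good P) (k : ℕ) :
    ∃ B : ℕ → Finset Pt, (∀ i, B i ⊆ P) ∧ (∀ i, #(B i) ≤ 3 * k + 2) ∧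
      #(Ed P k) ≤ ∑ i ∈ range (8 * #P / (k + 1) + 1), #(Ed (B i) k) := by
  classical
  obtain ⟨j, hj1, hj2, hj3⟩ := exists_level hP k
  obtain ⟨cnt, hcnt⟩ : ∃ cnt : Pt × Pt → ℕ, ∀ e, cnt e =
      #{f ∈ Ed P j | sl f.1 f.2 < sl e.1 e.2} := ⟨_, fun _ => rfl⟩
  have hpiece : ∀ i, ∃ B : Finset Pt, B ⊆ P ∧ #B ≤ j + 1 + k ∧
      ({e ∈ Ed P k | cnt e / (k + 1) = i} : Finset (Pt × Pt)) ⊆ Ed B k := by
    intro i
    apply piece hP hj1 _ (filter_subset _ _)
    intro e he e' he'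
    obtain ⟨_, h1⟩ := mem_filter.1 he
    obtain ⟨_, h2⟩ := mem_filter.1 he'
    have h3 : cnt e' < cnt e + (k + 1) := by
      have a1 := Nat.div_add_mod (cnt e) (k + 1)
      have a2 := Nat.div_add_mod (cnt e') (k + 1)
      have a3 : cnt e' % (k + 1) < k + 1 := Nat.mod_lt (cnt e') (Nat.succ_pos k)
      rw [h1] at a1
      rw [h2] at a2
      generalize (k + 1) * i = x at a1 a2
      omega
    have h4 : cnt e + #{f ∈ Ed P j | sl e.1 e.2 ≤ sl f.1 f.2 ∧ sl f.1 f.2 < sl e'.1 e'.2} ≤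
        max (cnt e) (cnt e') := by
      by_cases h5 : sl e.1 e.2 < sl e'.1 e'.2
      · refine le_trans ?_ (le_max_right _ _)
        rw [hcnt e, hcnt e', ← Finset.card_union_of_disjoint]
        · apply Finset.card_le_card
          intro f hf
          rw [mem_union, mem_filter, mem_filter] at hf
          rw [mem_filter]
          rcases hf with hf | hf
          · exact ⟨hf.1, hf.2.trans h5⟩
          · exact ⟨hf.1, hf.2.2⟩
        · rw [Finset.disjoint_left]
          intro f hf hf'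
          rw [mem_filter] at hf hf'
          exact absurd hf.2 (not_lt.2 hf'.2.1)
      · refine le_trans (le_of_eq ?_) (le_max_left _ _)
        have : ({f ∈ Ed P j | sl e.1 e.2 ≤ sl f.1 f.2 ∧ sl f.1 f.2 < sl e'.1 e'.2} :
            Finset (Pt × Pt)) = ∅ := by
          rw [filter_eq_empty_iff]
          intro f _ hf
          exact h5 (lt_of_le_of_lt hf.1 hf.2)
        rw [this, card_empty, add_zero]
    rcases le_total (cnt e) (cnt e') with h6 | h6
    · rw [max_eq_right h6] at h4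
      omega
    · rw [max_eq_left h6] at h4
      omega
  choose B hB1 hB2 hB3 using hpiece
  refine ⟨B, hB1, fun i => (hB2 i).trans (by omega), ?_⟩
  have hmaps : Set.MapsTo (fun e => cnt e / (k + 1)) (↑(Ed P k) : Set (Pt × Pt))
      (↑(range (8 * #P / (k + 1) + 1)) : Set ℕ) := by
    intro e _
    rw [Finset.mem_coe, mem_range]
    apply Nat.lt_succ_of_le
    apply Nat.div_le_div_right
    rw [hcnt]
    exact (card_le_card (filter_subset _ _)).trans hj3
  rw [Finset.card_eq_sum_card_fiberwise hmaps]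
  apply Finset.sum_le_sum
  intro i _
  exact card_le_card (hB3 i)

/-- **k-sensitive form** of any bound `C * n ^ (4 / 3 - c)` -/
theorem kdep {c C : ℝ} (hc : c ≤ 4 / 3)
    (h : ∀ (P : Finset Pt) (k : ℕ), Good P → (#(Ed P k) : ℝ) ≤ C * (#P : ℝ) ^ (4 / 3 - c)) :
    ∀ (P : Finset Pt) (k : ℕ), Good P →
      (#(Ed P k) : ℝ) ≤ 9 * C * 3 ^ (4 / 3 - c) * #P * ((k : ℝ) + 1) ^ (1 / 3 - c) := by
  intro P k hP
  -- the constant is nonnegative
  have hC : 0 ≤ C := by
    have hg : Good ({(0, 0)} : Finset Pt) := by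
      refine ⟨?_, ?_⟩
      · intro p hp q hq _
        rw [mem_singleton] at hp hq
        rw [hp, hq]
      · intro m a ha b hb c _ hab
        rw [mem_singleton] at ha hb
        exact absurd (ha.trans hb.symm) hab
    have h1 := h {(0, 0)} 0 hg
    rw [card_singleton, Nat.cast_one, Real.one_rpow, mul_one] at h1
    exact le_trans (Nat.cast_nonneg _) h1
  have hk : (0 : ℝ) < (k : ℝ) + 1 := by positivity
  rcases (Ed P k).eq_empty_or_nonempty with hE | ⟨e, he⟩
  · rw [hE, card_empty, Nat.cast_zero]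
    positivity
  -- `k + 1 ≤ n`
  have hn : k + 1 ≤ #P := by
    have h1 : bel P e ⊂ P := by
      rw [Finset.ssubset_iff_of_subset (fun v hv => (mem_bel.1 hv).1)]
      exact ⟨e.1, (mem_Ed.1 he).1, fun h2 => lt_irrefl _ (mem_bel.1 h2).2⟩
    have h2 := Finset.card_lt_card h1
    rw [card_bel he] at h2
    exact h2
  obtain ⟨B, hB1, hB2, hB3⟩ := decomp hP k
  have hterm : ∀ i, (#(Ed (B i) k) : ℝ) ≤ C * (3 * ((k : ℝ) + 1)) ^ (4 / 3 - c) := by
    intro i
    refine (h (B i) k (good_mono hP (hB1 i))).trans ?_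
    apply mul_le_mul_of_nonneg_left _ hC
    apply Real.rpow_le_rpow (Nat.cast_nonneg _) _ (by linarith)
    have : (#(B i) : ℝ) ≤ ((3 * k + 2 : ℕ) : ℝ) := by exact_mod_cast hB2 i
    push_cast at this
    linarith
  have hsum : (#(Ed P k) : ℝ) ≤
      ((8 * #P / (k + 1) + 1 : ℕ) : ℝ) * (C * (3 * ((k : ℝ) + 1)) ^ (4 / 3 - c)) := by
    calc (#(Ed P k) : ℝ) ≤ ((∑ i ∈ range (8 * #P / (k + 1) + 1), #(Ed (B i) k) : ℕ) : ℝ) := by
          exact_mod_cast hB3
      _ = ∑ i ∈ range (8 * #P / (k + 1) + 1), (#(Ed (B i) k) : ℝ) := by push_cast; rfl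
      _ ≤ ∑ _i ∈ range (8 * #P / (k + 1) + 1), C * (3 * ((k : ℝ) + 1)) ^ (4 / 3 - c) :=
          Finset.sum_le_sum fun i _ => hterm i
      _ = _ := by rw [sum_const, card_range, nsmul_eq_mul]
  have hM : ((8 * #P / (k + 1) + 1 : ℕ) : ℝ) ≤ 9 * #P / ((k : ℝ) + 1) := by
    rw [le_div_iff₀ hk]
    have h1 : (8 * #P / (k + 1) + 1) * (k + 1) ≤ 9 * #P := by
      have := Nat.div_mul_le_self (8 * #P) (k + 1)
      rw [Nat.add_mul, Nat.one_mul]
      omega
    exact_mod_cast h1
  have hpos : 0 ≤ C * (3 * ((k : ℝ) + 1)) ^ (4 / 3 - c) := by positivity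
  refine hsum.trans ((mul_le_mul_of_nonneg_right hM hpos).trans (le_of_eq ?_))
  rw [Real.mul_rpow (by norm_num) hk.le]
  have h3 : ((k : ℝ) + 1) ^ (4 / 3 - c) = ((k : ℝ) + 1) * ((k : ℝ) + 1) ^ (1 / 3 - c) := by
    have : (4 / 3 - c : ℝ) = 1 + (1 / 3 - c) := by ring
    rw [this, Real.rpow_add hk, Real.rpow_one]
  rw [h3]
  field_simp

end Vale.Agent.P065.H882
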