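import Vale.Agent.P065.UB.Cross
import Vale.Agent.P065.UB350.Cross

/-!
# P065, upper bound: the crossing principle (helper882)

The `k`-edges inside `Q` with slope in `I` have at most `3 (w + V) ^ 2` crossings (`w` touched
points, `V` boundary edges), hence *any* set `F` of such edges with all ends in `T1` has at most
`4 #T1 + 6 (#T1 (w + V)) ^ (2/3)` elements; unbalanced version for edges meeting a small set `R`.
-/

set_option autoImplicit false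

namespace Vale.Agent.P065.H882

open Finset UB

theorem yv_eq_Ln (e : Eg) (x : ℝ) : UB350.yv e x = Ln e x := by
  unfold UB350.yv UB350.sl Ln slE UB.sl ht
  ring

theorem det3_ne {P : Finset Pt} (hP : Good P) : UB350.GP P := by
  intro p hp q hq r hr hpq hqr hpr h
  have hx : p.1 ≠ q.1 := fun h => hpq (hP.xinj p hp q hq h)
  have hx' : q.1 - p.1 ≠ 0 := sub_ne_zero.2 (Ne.symm hx)
  refine hP.gen ((q.2 - p.2) / (q.1 - p.1)) p hp q hq r hr hpq hpr hqr ?_ ?_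
  · unfold ht
    field_simp
    ring
  · unfold UB350.det3 at h
    unfold ht
    have h1 : (r.2 - p.2) = (q.2 - p.2) / (q.1 - p.1) * (r.1 - p.1) := by
      field_simp
      linarith
    linarith [h1]

open Classical in
/-- the crossing pairs among the `k`-edges inside `Q` with slope in `I` (smaller slope first) -/
noncomputable def CrP (P : Finset Pt) (k : ℕ) (Q : Finset Pt) (I : Set ℝ) : Finset (Eg × Eg) :=
  {ef ∈ EdIn P k Q I ×ˢ EdIn P k Q I | slE ef.1 < slE ef.2 ∧ UB350.Cr ef.1 ef.2}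

theorem mem_CrP {P : Finset Pt} {k : ℕ} {Q : Finset Pt} {I : Set ℝ} {ef : Eg × Eg} :
    ef ∈ CrP P k Q I ↔ ef.1 ∈ EdIn P k Q I ∧ ef.2 ∈ EdIn P k Q I ∧ slE ef.1 < slE ef.2 ∧
      UB350.Cr ef.1 ef.2 := by
  classical
  unfold CrP
  rw [mem_filter, mem_product]
  tauto

/-- every crossing pair is listed in one of the two orders -/
theorem CrP_complete {P : Finset Pt} (hP : Good P) {k : ℕ} {Q : Finset Pt} {I : Set ℝ} {e f : Eg}
    (he : e ∈ EdIn P k Q I) (hf : f ∈ EdIn P k Q I) (hne : e ≠ f) (h : UB350.Cr e f) :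
    (e, f) ∈ CrP P k Q I ∨ (f, e) ∈ CrP P k Q I := by
  rcases lt_trichotomy (slE e) (slE f) with h1 | h1 | h1
  · left; exact mem_CrP.2 ⟨he, hf, h1, h⟩
  · exact absurd (slE_inj hP (mem_EdIn.mp he).1 (mem_EdIn.mp hf).1 h1) hne
  · right; exact mem_CrP.2 ⟨hf, he, h1, h.symm⟩

/-- two edges of one piece whose open ranges meet are equal -/
theorem eq_of_root {P : Finset Pt} (hP : Good P) {k : ℕ} {Q : Finset Pt} {I : Set ℝ} {e f : Eg}
    (he : e ∈ EdIn P k Q I) (hf : f ∈ EdIn P k Q I)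
    (h : root P k Q I e = root P k Q I f) {x : ℝ} (h1 : e.1.1 < x) (h2 : x < e.2.1)
    (h3 : f.1.1 < x) (h4 : x < f.2.1) : e = f := by
  rcases compar hP h with h5 | h5 | h5
  · exact h5
  · have := h5.range
    linarith
  · have := h5.range
    linarith

/-- **number of crossings** -/
theorem card_CrP {P : Finset Pt} {k : ℕ} {Q : Finset Pt} {I : Set ℝ} (hP : Good P) (hQ : Q ⊆ P)
    (hI : I.OrdConnected) :
    #(CrP P k Q I) ≤ 3 * (#(Tch P k Q I) + #(EdBd P k Q I)) ^ 2 := by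
  classical
  have hL : Loc P k Q I := ⟨hP, hQ, hI⟩
  -- crossing abscissa
  have hx : ∀ ef ∈ CrP P k Q I, ∃ x, ef.1.1.1 < x ∧ x < ef.1.2.1 ∧ ef.2.1.1 < x ∧ x < ef.2.2.1 ∧
      UB350.yv ef.1 x = UB350.yv ef.2 x := fun ef hef => (mem_CrP.1 hef).2.2.2
  choose! X hX using hx
  set F := (Pcs P k Q I ×ˢ Pcs P k Q I).filter (fun ac => ac.1 ≠ ac.2) with hF
  let fib : Eg × Eg → Finset (Eg × Eg) := fun ac =>
    (CrP P k Q I).filter (fun ef => (root P k Q I ef.1, root P k Q I ef.2) = ac)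
  let Z : Eg → Eg → Finset ℝ := fun a c => (fib (a, c)).image X
  have hZ : ∀ a ∈ Pcs P k Q I, ∀ c ∈ Pcs P k Q I, a ≠ c → ∀ z ∈ Z a c, Crs P k Q I a c z := by
    intro a _ c _ _ z hz
    obtain ⟨ef, hef, rfl⟩ := mem_image.1 hz
    obtain ⟨h1, h2⟩ := mem_filter.1 hef
    obtain ⟨h3, h4, h5, h6⟩ := mem_CrP.1 h1
    obtain ⟨g1, g2, g3, g4, g5⟩ := hX ef h1
    rw [Prod.mk.injEq] at h2
    rw [yv_eq_Ln, yv_eq_Ln] at g5
    exact ⟨ef.1, h3, ef.2, h4, h2.1, h2.2, g1.le, g2.le, g3.le, g4.le, g5⟩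
  have hsum := stCross P k Q I hP hQ hI Z hZ
  have hmaps : ∀ ef ∈ CrP P k Q I, (root P k Q I ef.1, root P k Q I ef.2) ∈ F := by
    intro ef hef
    obtain ⟨h3, h4, h5, h6⟩ := mem_CrP.1 hef
    obtain ⟨g1, g2, g3, g4, g5⟩ := hX ef hef
    refine mem_filter.2 ⟨mem_product.2 ⟨root_mem_Pcs h3, root_mem_Pcs h4⟩, ?_⟩
    intro hr
    have := eq_of_root hP h3 h4 hr g1 g2 g3 g4
    rw [this] at h5
    exact lt_irrefl _ h5
  have hcard : #(CrP P k Q I) = ∑ ac ∈ F, #(fib ac) :=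
    card_eq_sum_card_fiberwise hmaps
  have hfib : ∀ ac ∈ F, #(fib ac) = #(Z ac.1 ac.2) := by
    intro ac _
    symm
    apply card_image_of_injOn
    intro ef hef ef' hef' hxx
    obtain ⟨h1, h2⟩ := mem_filter.1 (mem_coe.1 hef)
    obtain ⟨h1', h2'⟩ := mem_filter.1 (mem_coe.1 hef')
    obtain ⟨h3, h4, h5, h6⟩ := mem_CrP.1 h1
    obtain ⟨h3', h4', h5', h6'⟩ := mem_CrP.1 h1'
    obtain ⟨g1, g2, g3, g4, g5⟩ := hX ef h1
    obtain ⟨g1', g2', g3', g4', g5'⟩ := hX ef' h1'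
    rw [← hxx] at g1' g2' g3' g4'
    have hr := h2.trans h2'.symm
    rw [Prod.mk.injEq] at hr
    exact Prod.ext (eq_of_root hP h3 h3' hr.1 g1 g2 g1' g2')
      (eq_of_root hP h4 h4' hr.2 g3 g4 g3' g4')
  rw [hcard, sum_congr rfl hfib]
  refine hsum.trans ?_
  have hp := card_Pcs hL
  have h1 : #(Pcs P k Q I) ^ 2 ≤ (#(Tch P k Q I) + #(EdBd P k Q I)) ^ 2 :=
    Nat.pow_le_pow_left hp 2
  have h2 : #(Tch P k Q I) ^ 2 ≤ (#(Tch P k Q I) + #(EdBd P k Q I)) ^ 2 :=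
    Nat.pow_le_pow_left (Nat.le_add_right _ _) 2
  omega

/-- **crossing principle**, integer form -/
theorem cross_pow {P : Finset Pt} {k : ℕ} {Q : Finset Pt} {I : Set ℝ} (hP : Good P) (hQ : Q ⊆ P)
    (hI : I.OrdConnected) {F : Finset Eg} (hF : F ⊆ EdIn P k Q I) {T : Finset Pt}
    (hT : ∀ e ∈ F, e.1 ∈ T ∧ e.2 ∈ T) (h4 : 4 * #T ≤ #F) :
    (#F : ℝ) ^ 3 ≤ 192 * ((#T : ℝ) * (#(Tch P k Q I) + #(EdBd P k Q I))) ^ 2 := by
  classical
  -- only the points of `T ∩ P` matter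
  set T' := T.filter (· ∈ P) with hT'
  have hTP : T' ⊆ P := fun v hv => (mem_filter.1 hv).2
  have hcT : #T' ≤ #T := card_filter_le _ _
  have hGP : UB350.GP T' := fun p hp q hq r hr => det3_ne hP p (hTP hp) q (hTP hq) r (hTP hr)
  have hES : UB350.EdgeSet T' F := by
    intro e he
    have h1 := mem_EdIn.mp (hF he)
    exact ⟨mem_filter.2 ⟨(hT e he).1, hQ h1.2.1⟩, mem_filter.2 ⟨(hT e he).2, hQ h1.2.2.1⟩,
      EdIn.lt (hF he)⟩
  have hc := UB350.crossing_lemma T' hGP F hES (CrP P k Q I)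
    (fun e he f hf hne hcr => CrP_complete hP (hF he) (hF hf) hne hcr) (by omega)
  have h3 : (#(CrP P k Q I) : ℝ) ≤ 3 * (#(Tch P k Q I) + #(EdBd P k Q I) : ℝ) ^ 2 := by
    exact_mod_cast card_CrP hP hQ hI
  have h5 : (#T' : ℝ) ≤ #T := by exact_mod_cast hcT
  calc (#F : ℝ) ^ 3 ≤ 64 * (#T' : ℝ) ^ 2 * #(CrP P k Q I) := hc
    _ ≤ 64 * (#T : ℝ) ^ 2 * (3 * (#(Tch P k Q I) + #(EdBd P k Q I) : ℝ) ^ 2) := by
        gcongr
    _ = 192 * ((#T : ℝ) * (#(Tch P k Q I) + #(EdBd P k Q I))) ^ 2 := by ring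

theorem le_rpow_of_cube {x y : ℝ} (hx : 0 ≤ x) (hy : 0 ≤ y) (h : x ^ 3 ≤ 192 * y ^ 2) :
    x ≤ 6 * y ^ (2 / 3 : ℝ) := by
  have h1 : (6 * y ^ (2 / 3 : ℝ)) ^ 3 = 216 * y ^ 2 := by
    rw [mul_pow, ← Real.rpow_natCast (y ^ (2 / 3 : ℝ)) 3, ← Real.rpow_mul hy]
    norm_num
  have h2 : x ^ 3 ≤ (6 * y ^ (2 / 3 : ℝ)) ^ 3 := by
    rw [h1]
    nlinarith [sq_nonneg y]
  exact le_of_pow_le_pow_left₀ (by norm_num) (by positivity) h2

/-- **crossing principle**: any set of `k`-edges of the window with all ends in `T` -/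
theorem cross_principle {P : Finset Pt} {k : ℕ} {Q : Finset Pt} {I : Set ℝ} (hP : Good P)
    (hQ : Q ⊆ P) (hI : I.OrdConnected) {F : Finset Eg} (hF : F ⊆ EdIn P k Q I) {T : Finset Pt}
    (hT : ∀ e ∈ F, e.1 ∈ T ∧ e.2 ∈ T) :
    (#F : ℝ) ≤ 4 * #T + 6 * ((#T : ℝ) * (#(Tch P k Q I) + #(EdBd P k Q I))) ^ (2 / 3 : ℝ) := by
  have hy : (0 : ℝ) ≤ (#T : ℝ) * (#(Tch P k Q I) + #(EdBd P k Q I)) := by positivity
  by_cases h4 : 4 * #T ≤ #F
  · have h1 := cross_pow hP hQ hI hF hT h4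
    have h2 := le_rpow_of_cube (Nat.cast_nonneg _) hy h1
    have : (0 : ℝ) ≤ #T := Nat.cast_nonneg _
    linarith
  · push Not at h4
    have h5 : (#F : ℝ) ≤ 4 * #T := by exact_mod_cast h4.le
    have h6 : 0 ≤ ((#T : ℝ) * (#(Tch P k Q I) + #(EdBd P k Q I))) ^ (2 / 3 : ℝ) :=
      Real.rpow_nonneg hy _
    linarith

end Vale.Agent.P065.H882
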