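import Vale.Agent.P065.H882.XPR

/-!
# P065, upper bound: the unbalanced crossing principle (helper882)

Bipartite crossing lemma with two sampling rates, and its consequence: the `k`-edges of a window
with all ends in `T` and at least one end in `R` are at most `C (#R #T) ^ (1/3) (w + V) ^ (2/3)
+ C #T`.
-/

set_option autoImplicit false

namespace Vale.Agent.P065.H882

open Finset UB

/-- weights of two independent binomial samples -/
noncomputable def w2 (V1 V2 : Finset Pt) (p q : ℝ) (S : Finset Pt × Finset Pt) : ℝ := by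
  classical
  exact (p ^ #S.1 * (1 - p) ^ #(V1 \ S.1)) * (q ^ #S.2 * (1 - q) ^ #(V2 \ S.2))

open Classical in
theorem weight2 (V1 V2 D1 D2 : Finset Pt) (h1 : D1 ⊆ V1) (h2 : D2 ⊆ V2) (p q : ℝ) :
    ∑ S ∈ V1.powerset ×ˢ V2.powerset, w2 V1 V2 p q S *
      (if D1 ⊆ S.1 ∧ D2 ⊆ S.2 then 1 else 0) = p ^ #D1 * q ^ #D2 := by
  have e1 := UB350.weight_sup V1 D1 h1 p
  have e2 := UB350.weight_sup V2 D2 h2 q
  rw [← e1, ← e2, Finset.sum_mul_sum, ← Finset.sum_product']
  apply Finset.sum_congr rfl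
  intro S _
  unfold w2
  by_cases a1 : D1 ⊆ S.1 <;> by_cases a2 : D2 ⊆ S.2 <;> simp [a1, a2]

open Classical in
/-- averaged form with two rates -/
theorem cross_avg2 (V1 V2 : Finset Pt) (hd : Disjoint V1 V2) (hV : UB350.GP (V1 ∪ V2))
    (E : Finset Eg)
    (hE : ∀ e ∈ E, ((e.1 ∈ V1 ∧ e.2 ∈ V2) ∨ (e.1 ∈ V2 ∧ e.2 ∈ V1)) ∧ e.1.1 < e.2.1)
    (C : Finset (Eg × Eg))
    (hC : ∀ e ∈ E, ∀ f ∈ E, e ≠ f → UB350.Cr e f → (e, f) ∈ C ∨ (f, e) ∈ C)
    (p q : ℝ) (hp : 0 ≤ p) (hp1 : p ≤ 1) (hq : 0 ≤ q) (hq1 : q ≤ 1) :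
    p * q * #E ≤ 3 * (p * #V1 + q * #V2) + p ^ 2 * q ^ 2 * #C := by
  -- only real crossing pairs count
  set C' := C.filter (fun c => c.1 ∈ E ∧ c.2 ∈ E ∧ c.1 ≠ c.2 ∧ UB350.Cr c.1 c.2) with hC'
  have hCC : (#C' : ℝ) ≤ #C := by exact_mod_cast card_filter_le _ _
  have hC2 : ∀ e ∈ E, ∀ f ∈ E, e ≠ f → UB350.Cr e f → (e, f) ∈ C' ∨ (f, e) ∈ C' := by
    intro e he f hf hne hcr
    rcases hC e he f hf hne hcr with h | h
    · left; simp only [hC', mem_filter]; exact ⟨h, he, hf, hne, hcr⟩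
    · right; simp only [hC', mem_filter]; exact ⟨h, hf, he, hne.symm, hcr.symm⟩
  let en : Eg → Finset Pt := fun e => {e.1, e.2}
  let ES : Finset Pt × Finset Pt → Finset Eg := fun S =>
    E.filter (fun e => en e ∩ V1 ⊆ S.1 ∧ en e ∩ V2 ⊆ S.2)
  let CS : Finset Pt × Finset Pt → Finset (Eg × Eg) := fun S =>
    C'.filter (fun c => (en c.1 ∪ en c.2) ∩ V1 ⊆ S.1 ∧ (en c.1 ∪ en c.2) ∩ V2 ⊆ S.2)
  have hends : ∀ e ∈ E, ∀ S : Finset Pt × Finset Pt, en e ∩ V1 ⊆ S.1 → en e ∩ V2 ⊆ S.2 →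
      e.1 ∈ S.1 ∪ S.2 ∧ e.2 ∈ S.1 ∪ S.2 := by
    intro e he S h1 h2
    have m1 : e.1 ∈ en e := by simp [en]
    have m2 : e.2 ∈ en e := by simp [en]
    rcases (hE e he).1 with ⟨a, b⟩ | ⟨a, b⟩
    · exact ⟨mem_union_left _ (h1 (mem_inter.2 ⟨m1, a⟩)),
        mem_union_right _ (h2 (mem_inter.2 ⟨m2, b⟩))⟩
    · exact ⟨mem_union_right _ (h2 (mem_inter.2 ⟨m1, a⟩)),
        mem_union_left _ (h1 (mem_inter.2 ⟨m2, b⟩))⟩
  have hS : ∀ S, (#(ES S) : ℝ) ≤ 3 * (#S.1 + #S.2) + #(CS S) := by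
    intro S
    have h1 : #(ES S) ≤ 3 * #(S.1 ∪ S.2) + #(CS S) := by
      apply UB350.cross_linear (S.1 ∪ S.2) (ES S)
      · intro e he
        obtain ⟨h1, h2, h3⟩ := mem_filter.1 he
        have := hends e h1 S h2 h3
        exact ⟨this.1, this.2, (hE e h1).2⟩
      · intro e he f hf hne hcr
        obtain ⟨h1, h2, h3⟩ := mem_filter.1 he
        obtain ⟨h4, h5, h6⟩ := mem_filter.1 hf
        rcases hC2 e h1 f h4 hne hcr with h | h
        · left
          refine mem_filter.2 ⟨h, ?_, ?_⟩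
          · rw [union_inter_distrib_right]
            exact union_subset h2 h5
          · rw [union_inter_distrib_right]
            exact union_subset h3 h6
        · right
          refine mem_filter.2 ⟨h, ?_, ?_⟩
          · rw [union_inter_distrib_right]
            exact union_subset h5 h2
          · rw [union_inter_distrib_right]
            exact union_subset h6 h3
    have h2 := card_union_le S.1 S.2
    have h3 : #(ES S) ≤ 3 * (#S.1 + #S.2) + #(CS S) := by omega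
    exact_mod_cast h3
  have hw : ∀ S, 0 ≤ w2 V1 V2 p q S := fun S => by
    unfold w2
    exact mul_nonneg (mul_nonneg (pow_nonneg hp _) (pow_nonneg (by linarith) _))
      (mul_nonneg (pow_nonneg hq _) (pow_nonneg (by linarith) _))
  have hdd : ∀ v, v ∈ V1 → v ∈ V2 → False := fun v h1 h2 =>
    (Finset.disjoint_left.1 hd) h1 h2
  -- ends of an edge
  have hen : ∀ e ∈ E, #(en e ∩ V1) = 1 ∧ #(en e ∩ V2) = 1 := by
    intro e he
    rcases (hE e he).1 with ⟨a, b⟩ | ⟨a, b⟩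
    · have s1 : en e ∩ V1 = {e.1} := by
        ext v
        simp only [en, mem_inter, mem_insert, mem_singleton]
        constructor
        · rintro ⟨h | h, hv⟩
          · exact h
          · rw [h] at hv; exact (hdd _ hv b).elim
        · rintro rfl; exact ⟨Or.inl rfl, a⟩
      have s2 : en e ∩ V2 = {e.2} := by
        ext v
        simp only [en, mem_inter, mem_insert, mem_singleton]
        constructor
        · rintro ⟨h | h, hv⟩
          · rw [h] at hv; exact (hdd _ a hv).elim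
          · exact h
        · rintro rfl; exact ⟨Or.inr rfl, b⟩
      rw [s1, s2]; simp
    · have s1 : en e ∩ V1 = {e.2} := by
        ext v
        simp only [en, mem_inter, mem_insert, mem_singleton]
        constructor
        · rintro ⟨h | h, hv⟩
          · rw [h] at hv; exact (hdd _ hv a).elim
          · exact h
        · rintro rfl; exact ⟨Or.inr rfl, b⟩
      have s2 : en e ∩ V2 = {e.1} := by
        ext v
        simp only [en, mem_inter, mem_insert, mem_singleton]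
        constructor
        · rintro ⟨h | h, hv⟩
          · exact h
          · rw [h] at hv; exact (hdd _ b hv).elim
        · rintro rfl; exact ⟨Or.inl rfl, a⟩
      rw [s1, s2]; simp
  have hE1 : ∑ S ∈ V1.powerset ×ˢ V2.powerset, w2 V1 V2 p q S * #(ES S) = p * q * #E := by
    have h0 : ∀ S, (#(ES S) : ℝ) = ∑ e ∈ E,
        if en e ∩ V1 ⊆ S.1 ∧ en e ∩ V2 ⊆ S.2 then 1 else 0 := by
      intro S
      simp only [ES, Finset.sum_boole]
    simp only [h0, Finset.mul_sum]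
    rw [Finset.sum_comm]
    have h2 : ∀ e ∈ E, ∑ S ∈ V1.powerset ×ˢ V2.powerset, w2 V1 V2 p q S *
        (if en e ∩ V1 ⊆ S.1 ∧ en e ∩ V2 ⊆ S.2 then 1 else 0) = p * q := by
      intro e he
      have := weight2 V1 V2 (en e ∩ V1) (en e ∩ V2) inter_subset_right inter_subset_right p q
      rw [(hen e he).1, (hen e he).2, pow_one, pow_one] at this
      exact this
    rw [Finset.sum_congr rfl h2, Finset.sum_const, nsmul_eq_mul]
    ring
  have hV1 : ∑ S ∈ V1.powerset ×ˢ V2.powerset, w2 V1 V2 p q S * (#S.1 : ℝ) = p * #V1 := by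
    have h0 : ∀ S ∈ V1.powerset ×ˢ V2.powerset, w2 V1 V2 p q S * (#S.1 : ℝ) =
        ∑ v ∈ V1, w2 V1 V2 p q S *
          (if ({v} : Finset Pt) ⊆ S.1 ∧ (∅ : Finset Pt) ⊆ S.2 then 1 else 0) := by
      intro S hS'
      have hS1 := mem_powerset.1 (mem_product.1 hS').1
      rw [← Finset.mul_sum, Finset.sum_boole]
      congr 3
      ext v
      simp only [mem_filter, singleton_subset_iff, empty_subset, and_true]
      exact ⟨fun h => ⟨hS1 h, h⟩, fun h => h.2⟩
    rw [Finset.sum_congr rfl h0, Finset.sum_comm]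
    have h2 : ∀ v ∈ V1, ∑ S ∈ V1.powerset ×ˢ V2.powerset, w2 V1 V2 p q S *
        (if ({v} : Finset Pt) ⊆ S.1 ∧ (∅ : Finset Pt) ⊆ S.2 then 1 else 0) = p := by
      intro v hv
      have := weight2 V1 V2 {v} ∅ (by simpa using hv) (empty_subset _) p q
      rw [card_singleton, card_empty, pow_one, pow_zero, mul_one] at this
      exact this
    rw [Finset.sum_congr rfl h2, Finset.sum_const, nsmul_eq_mul]
    ring
  have hV2 : ∑ S ∈ V1.powerset ×ˢ V2.powerset, w2 V1 V2 p q S * (#S.2 : ℝ) = q * #V2 := by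
    have h0 : ∀ S ∈ V1.powerset ×ˢ V2.powerset, w2 V1 V2 p q S * (#S.2 : ℝ) =
        ∑ v ∈ V2, w2 V1 V2 p q S *
          (if (∅ : Finset Pt) ⊆ S.1 ∧ ({v} : Finset Pt) ⊆ S.2 then 1 else 0) := by
      intro S hS'
      have hS1 := mem_powerset.1 (mem_product.1 hS').2
      rw [← Finset.mul_sum, Finset.sum_boole]
      congr 3
      ext v
      simp only [mem_filter, singleton_subset_iff, empty_subset, true_and]
      exact ⟨fun h => ⟨hS1 h, h⟩, fun h => h.2⟩
    rw [Finset.sum_congr rfl h0, Finset.sum_comm]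
    have h2 : ∀ v ∈ V2, ∑ S ∈ V1.powerset ×ˢ V2.powerset, w2 V1 V2 p q S *
        (if (∅ : Finset Pt) ⊆ S.1 ∧ ({v} : Finset Pt) ⊆ S.2 then 1 else 0) = q := by
      intro v hv
      have := weight2 V1 V2 ∅ {v} (empty_subset _) (by simpa using hv) p q
      rw [card_singleton, card_empty, pow_one, pow_zero, one_mul] at this
      exact this
    rw [Finset.sum_congr rfl h2, Finset.sum_const, nsmul_eq_mul]
    ring
  have hC1 : ∑ S ∈ V1.powerset ×ˢ V2.powerset, w2 V1 V2 p q S * #(CS S)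
      = p ^ 2 * q ^ 2 * #C' := by
    have h0 : ∀ S, (#(CS S) : ℝ) = ∑ c ∈ C',
        if (en c.1 ∪ en c.2) ∩ V1 ⊆ S.1 ∧ (en c.1 ∪ en c.2) ∩ V2 ⊆ S.2 then 1 else 0 := by
      intro S
      simp only [CS, Finset.sum_boole]
    simp only [h0, Finset.mul_sum]
    rw [Finset.sum_comm]
    have h2 : ∀ c ∈ C', ∑ S ∈ V1.powerset ×ˢ V2.powerset, w2 V1 V2 p q S *
        (if (en c.1 ∪ en c.2) ∩ V1 ⊆ S.1 ∧ (en c.1 ∪ en c.2) ∩ V2 ⊆ S.2 then 1 else 0)
          = p ^ 2 * q ^ 2 := by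
      intro c hc
      obtain ⟨_, h1, h2, h3, h4⟩ := mem_filter.1 hc
      have hmem : ∀ e ∈ E, e.1 ∈ V1 ∪ V2 ∧ e.2 ∈ V1 ∪ V2 ∧ e.1.1 < e.2.1 := by
        intro e he
        rcases (hE e he).1 with ⟨a, b⟩ | ⟨a, b⟩
        · exact ⟨mem_union_left _ a, mem_union_right _ b, (hE e he).2⟩
        · exact ⟨mem_union_right _ a, mem_union_left _ b, (hE e he).2⟩
      have h4c := UB350.cross_ends hV (hmem _ h1) (hmem _ h2) h3 h4
      have hset : ({c.1.1, c.1.2, c.2.1, c.2.2} : Finset Pt) = en c.1 ∪ en c.2 := by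
        ext v
        simp only [en, mem_insert, mem_singleton, mem_union]
        tauto
      rw [hset] at h4c
      have u1 : #((en c.1 ∪ en c.2) ∩ V1) ≤ 2 := by
        rw [union_inter_distrib_right]
        have := card_union_le (en c.1 ∩ V1) (en c.2 ∩ V1)
        rw [(hen _ h1).1, (hen _ h2).1] at this
        exact this
      have u2 : #((en c.1 ∪ en c.2) ∩ V2) ≤ 2 := by
        rw [union_inter_distrib_right]
        have := card_union_le (en c.1 ∩ V2) (en c.2 ∩ V2)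
        rw [(hen _ h1).2, (hen _ h2).2] at this
        exact this
      have u3 : #(en c.1 ∪ en c.2) ≤ #((en c.1 ∪ en c.2) ∩ V1) + #((en c.1 ∪ en c.2) ∩ V2) := by
        have hsub : en c.1 ∪ en c.2 ⊆ ((en c.1 ∪ en c.2) ∩ V1) ∪ ((en c.1 ∪ en c.2) ∩ V2) := by
          intro v hv
          have hv' : v ∈ V1 ∪ V2 := by
            rcases mem_union.1 hv with h | h
            · simp only [en, mem_insert, mem_singleton] at h
              rcases h with h | h
              · rw [h]; exact (hmem _ h1).1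
              · rw [h]; exact (hmem _ h1).2.1
            · simp only [en, mem_insert, mem_singleton] at h
              rcases h with h | h
              · rw [h]; exact (hmem _ h2).1
              · rw [h]; exact (hmem _ h2).2.1
          rcases mem_union.1 hv' with h | h
          · exact mem_union_left _ (mem_inter.2 ⟨hv, h⟩)
          · exact mem_union_right _ (mem_inter.2 ⟨hv, h⟩)
        exact (card_le_card hsub).trans (card_union_le _ _)
      have v1 : #((en c.1 ∪ en c.2) ∩ V1) = 2 := by omega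
      have v2 : #((en c.1 ∪ en c.2) ∩ V2) = 2 := by omega
      have := weight2 V1 V2 ((en c.1 ∪ en c.2) ∩ V1) ((en c.1 ∪ en c.2) ∩ V2)
        inter_subset_right inter_subset_right p q
      rw [v1, v2] at this
      exact this
    rw [Finset.sum_congr rfl h2, Finset.sum_const, nsmul_eq_mul]
    ring
  have hsum : ∑ S ∈ V1.powerset ×ˢ V2.powerset, w2 V1 V2 p q S * #(ES S) ≤
      ∑ S ∈ V1.powerset ×ˢ V2.powerset, (3 * (w2 V1 V2 p q S * (#S.1 : ℝ)) +
        3 * (w2 V1 V2 p q S * (#S.2 : ℝ)) + w2 V1 V2 p q S * #(CS S)) := by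
    apply Finset.sum_le_sum
    intro S _
    have := mul_le_mul_of_nonneg_left (hS S) (hw S)
    linarith
  rw [Finset.sum_add_distrib, Finset.sum_add_distrib, ← Finset.mul_sum, ← Finset.mul_sum, hE1,
    hV1, hV2, hC1] at hsum
  have : p ^ 2 * q ^ 2 * (#C' : ℝ) ≤ p ^ 2 * q ^ 2 * #C :=
    mul_le_mul_of_nonneg_left hCC (by positivity)
  linarith

/-- **bipartite crossing lemma** -/
theorem crossing_bip (V1 V2 : Finset Pt) (hd : Disjoint V1 V2) (hV : UB350.GP (V1 ∪ V2))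
    (E : Finset Eg)
    (hE : ∀ e ∈ E, ((e.1 ∈ V1 ∧ e.2 ∈ V2) ∨ (e.1 ∈ V2 ∧ e.2 ∈ V1)) ∧ e.1.1 < e.2.1)
    (C : Finset (Eg × Eg))
    (hC : ∀ e ∈ E, ∀ f ∈ E, e ≠ f → UB350.Cr e f → (e, f) ∈ C ∨ (f, e) ∈ C)
    {t : ℕ} (h1 : #V1 ≤ t) (h2 : #V2 ≤ t) (h12 : 12 * t ≤ #E) :
    (#E : ℝ) ^ 3 ≤ 288 * (#V1 : ℝ) * t * #C := by
  classical
  rcases Nat.eq_zero_or_pos #E with h0 | hpos
  · rw [h0]; simp; positivity
  obtain ⟨e0, he0⟩ := card_pos.1 hpos
  have hr : 0 < #V1 := by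
    rcases (hE e0 he0).1 with ⟨a, b⟩ | ⟨a, b⟩
    · exact card_pos.2 ⟨_, a⟩
    · exact card_pos.2 ⟨_, b⟩
  have ht : 0 < t := lt_of_lt_of_le hr h1
  have e0' : (0 : ℝ) < (#E : ℝ) := by exact_mod_cast hpos
  have r0 : (0 : ℝ) < (#V1 : ℝ) := by exact_mod_cast hr
  have T0 : (0 : ℝ) < (t : ℝ) := by exact_mod_cast ht
  have rT : (#V1 : ℝ) ≤ (t : ℝ) := by exact_mod_cast h1
  have sT : (#V2 : ℝ) ≤ (t : ℝ) := by exact_mod_cast h2
  have hc0 : (0 : ℝ) ≤ (#C : ℝ) := Nat.cast_nonneg _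
  have h12' : 12 * (t : ℝ) ≤ (#E : ℝ) := by exact_mod_cast h12
  have havg0 := cross_avg2 V1 V2 hd hV E hE C hC
  generalize (#E : ℝ) = e at *
  generalize (#V1 : ℝ) = r at *
  generalize (#V2 : ℝ) = s at *
  generalize (#C : ℝ) = c at *
  generalize (t : ℝ) = T at *
  have hp1 : 12 * T / e ≤ 1 := by rw [div_le_one e0']; exact h12'
  have hp0 : 0 ≤ 12 * T / e := by positivity
  have hq1 : 12 * T / e * (r / T) ≤ 1 := by
    have : r / T ≤ 1 := by rw [div_le_one T0]; exact rT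
    calc 12 * T / e * (r / T) ≤ 1 * 1 := mul_le_mul hp1 this (by positivity) (by norm_num)
      _ = 1 := by norm_num
  have havg := havg0 (12 * T / e) (12 * T / e * (r / T)) hp0 hp1 (by positivity) hq1
  have hav : (12 * T / e) * (12 * T / e * (r / T)) * e ≤
      3 * ((12 * T / e) * r + (12 * T / e * (r / T)) * s) +
        (12 * T / e) ^ 2 * (12 * T / e * (r / T)) ^ 2 * c := havg
  have q1 : (12 * T / e) * (12 * T / e * (r / T)) * e = 144 * T * r / e := by
    field_simp; ring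
  have q2 : 3 * ((12 * T / e) * r + (12 * T / e * (r / T)) * s) ≤ 72 * T * r / e := by
    have : (12 * T / e * (r / T)) * s ≤ (12 * T / e * (r / T)) * T :=
      mul_le_mul_of_nonneg_left sT (by positivity)
    have q3 : (12 * T / e * (r / T)) * T = 12 * T / e * r := by field_simp
    have q4 : 72 * T * r / e = 3 * ((12 * T / e) * r + 12 * T / e * r) := by ring
    rw [q4]
    linarith
  have q5 : (12 * T / e) ^ 2 * (12 * T / e * (r / T)) ^ 2 * c = 20736 * T ^ 2 * r ^ 2 * c / e ^ 4 := by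
    field_simp; ring
  rw [q1, q5] at hav
  have h5 : 72 * T * r / e ≤ 20736 * T ^ 2 * r ^ 2 * c / e ^ 4 := by
    have : 144 * T * r / e = 72 * T * r / e + 72 * T * r / e := by ring
    linarith
  rw [div_le_div_iff₀ e0' (by positivity)] at h5
  have h6 : (72 * T * r * e) * e ^ 3 ≤ (72 * T * r * e) * (288 * r * T * c) := by
    nlinarith [h5]
  exact le_of_mul_le_mul_left h6 (by positivity)

theorem le_rpow_of_cube' {x y z : ℝ} (hx : 0 ≤ x) (hy : 0 ≤ y) (hz : 0 ≤ z)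
    (h : x ^ 3 ≤ 864 * (y * z ^ 2)) :
    x ≤ 10 * (y ^ (1 / 3 : ℝ) * z ^ (2 / 3 : ℝ)) := by
  have h1 : (10 * (y ^ (1 / 3 : ℝ) * z ^ (2 / 3 : ℝ))) ^ 3 = 1000 * (y * z ^ 2) := by
    rw [mul_pow, mul_pow, ← Real.rpow_natCast (y ^ (1 / 3 : ℝ)) 3, ← Real.rpow_mul hy,
      ← Real.rpow_natCast (z ^ (2 / 3 : ℝ)) 3, ← Real.rpow_mul hz]
    norm_num
  have h2 : x ^ 3 ≤ (10 * (y ^ (1 / 3 : ℝ) * z ^ (2 / 3 : ℝ))) ^ 3 := by
    rw [h1]
    nlinarith [mul_nonneg hy (sq_nonneg z)]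
  exact le_of_pow_le_pow_left₀ (by norm_num) (by positivity) h2

/-- **unbalanced crossing principle**: the `k`-edges of the window with all ends in `T` and at
least one end in `R ⊆ T` -/
theorem cross_principle_bip {P : Finset Pt} {k : ℕ} {Q : Finset Pt} {I : Set ℝ} (hP : Good P)
    (hQ : Q ⊆ P) (hI : I.OrdConnected) {F : Finset Eg} (hF : F ⊆ EdIn P k Q I)
    {R T : Finset Pt} (hRT : R ⊆ T) (hT : ∀ e ∈ F, e.1 ∈ T ∧ e.2 ∈ T)
    (hR : ∀ e ∈ F, e.1 ∈ R ∨ e.2 ∈ R) :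
    (#F : ℝ) ≤ 16 * #T + 16 * (((#R : ℝ) * #T) ^ (1 / 3 : ℝ) *
      ((#(Tch P k Q I) : ℝ) + #(EdBd P k Q I)) ^ (2 / 3 : ℝ)) := by
  classical
  set m : ℝ := (#(Tch P k Q I) : ℝ) + #(EdBd P k Q I) with hm
  have hm0 : 0 ≤ m := by positivity
  -- the edges with both ends in `R`
  set F1 := F.filter (fun e => e.1 ∈ R ∧ e.2 ∈ R) with hF1
  set F2 := F.filter (fun e => ¬ (e.1 ∈ R ∧ e.2 ∈ R)) with hF2
  have hcF : #F1 + #F2 = #F := card_filter_add_card_filter_not _
  have hb1 := cross_principle hP hQ hI (F := F1) ((filter_subset _ _).trans hF) (T := R)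
    (fun e he => (mem_filter.1 he).2)
  rw [← hm] at hb1
  have hRc : (#R : ℝ) ≤ #T := by exact_mod_cast card_le_card hRT
  have hR0 : (0 : ℝ) ≤ #R := Nat.cast_nonneg _
  have hT0 : (0 : ℝ) ≤ #T := Nat.cast_nonneg _
  have hb1' : ((#R : ℝ) * m) ^ (2 / 3 : ℝ) ≤ ((#R : ℝ) * #T) ^ (1 / 3 : ℝ) * m ^ (2 / 3 : ℝ) := by
    rw [Real.mul_rpow hR0 hm0]
    apply mul_le_mul_of_nonneg_right _ (Real.rpow_nonneg hm0 _)
    have : (#R : ℝ) ^ (2 / 3 : ℝ) = ((#R : ℝ) * #R) ^ (1 / 3 : ℝ) := by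
      rw [← sq, ← Real.rpow_natCast (#R : ℝ) 2, ← Real.rpow_mul hR0]
      norm_num
    rw [this]
    exact Real.rpow_le_rpow (by positivity) (mul_le_mul_of_nonneg_left hRc hR0) (by norm_num)
  -- the mixed edges
  have hb2 : (#F2 : ℝ) ≤ 12 * #T + 10 * (((#R : ℝ) * #T) ^ (1 / 3 : ℝ) * m ^ (2 / 3 : ℝ)) := by
    by_cases h12 : 12 * #T ≤ #F2
    · set V1 := R.filter (· ∈ P) with hV1
      set V2 := (T \ R).filter (· ∈ P) with hV2
      have hd : Disjoint V1 V2 := by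
        rw [Finset.disjoint_left]
        intro v h1 h2
        exact (mem_sdiff.1 (mem_filter.1 h2).1).2 (mem_filter.1 h1).1
      have hsub : V1 ∪ V2 ⊆ P := by
        apply union_subset
        · exact fun v hv => (mem_filter.1 hv).2
        · exact fun v hv => (mem_filter.1 hv).2
      have hGP : UB350.GP (V1 ∪ V2) := fun p hp q hq r hr =>
        det3_ne hP p (hsub hp) q (hsub hq) r (hsub hr)
      have hFF : F2 ⊆ EdIn P k Q I := (filter_subset _ _).trans hF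
      have hE : ∀ e ∈ F2, ((e.1 ∈ V1 ∧ e.2 ∈ V2) ∨ (e.1 ∈ V2 ∧ e.2 ∈ V1)) ∧ e.1.1 < e.2.1 := by
        intro e he
        obtain ⟨h1, h2⟩ := mem_filter.1 he
        have g := mem_EdIn.mp (hF h1)
        have p1 : e.1 ∈ P := hQ g.2.1
        have p2 : e.2 ∈ P := hQ g.2.2.1
        refine ⟨?_, EdIn.lt (hF h1)⟩
        rcases hR e h1 with h3 | h3
        · left
          exact ⟨mem_filter.2 ⟨h3, p1⟩, mem_filter.2 ⟨mem_sdiff.2 ⟨(hT e h1).2,
            fun h => h2 ⟨h3, h⟩⟩, p2⟩⟩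
        · right
          exact ⟨mem_filter.2 ⟨mem_sdiff.2 ⟨(hT e h1).1, fun h => h2 ⟨h, h3⟩⟩, p1⟩,
            mem_filter.2 ⟨h3, p2⟩⟩
      have hc1 : #V1 ≤ #T := (card_filter_le _ _).trans (card_le_card hRT)
      have hc2 : #V2 ≤ #T := (card_filter_le _ _).trans (card_le_card sdiff_subset)
      have hc := crossing_bip V1 V2 hd hGP F2 hE (CrP P k Q I)
        (fun e he f hf hne hcr => CrP_complete hP (hFF he) (hFF hf) hne hcr) hc1 hc2 h12
      have h3 : (#(CrP P k Q I) : ℝ) ≤ 3 * m ^ 2 := by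
        rw [hm]
        exact_mod_cast card_CrP hP hQ hI
      have h4 : (#V1 : ℝ) ≤ #R := by exact_mod_cast card_filter_le _ _
      have h5 : (#F2 : ℝ) ^ 3 ≤ 864 * (((#R : ℝ) * #T) * m ^ 2) := by
        calc (#F2 : ℝ) ^ 3 ≤ 288 * (#V1 : ℝ) * #T * #(CrP P k Q I) := hc
          _ ≤ 288 * (#R : ℝ) * #T * (3 * m ^ 2) := by gcongr
          _ = 864 * (((#R : ℝ) * #T) * m ^ 2) := by ring
      have h6 := le_rpow_of_cube' (Nat.cast_nonneg _) (by positivity) hm0 h5
      linarith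
    · push Not at h12
      have h5 : (#F2 : ℝ) ≤ 12 * #T := by exact_mod_cast h12.le
      have h6 : 0 ≤ ((#R : ℝ) * #T) ^ (1 / 3 : ℝ) * m ^ (2 / 3 : ℝ) := by positivity
      linarith
  have hcF' : (#F : ℝ) = #F1 + #F2 := by rw [← hcF]; push_cast; ring
  rw [hcF']
  linarith

end Vale.Agent.P065.H882
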